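import Vale.Agent.P365.H509.Animals770
import Vale.Agent.P365.J376.V3
import Vale.Agent.P365.T1.PeelCof963

/-!
# P365-T1 (B7): range-5 clusters of non-good sites
-/

set_option linter.all false

namespace P365T1

open P365L Finset

variable {N : ℕ} [NeZero N] {Λ : Type*}

/-! ### definitions -/

open Classical in
/-- the sites whose label is not `g` -/
noncomputable def nsl (g : Λ) (l : Tor N → Λ) : Finset (Tor N) := univ.filter fun z => l z ≠ g

open Classical in
/-- the range-5 cluster of `z0` -/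
noncomputable def cl (g : Λ) (l : Tor N → Λ) (z0 : Tor N) : Finset (Tor N) :=
  univ.filter fun z => Cl5 (nsl g l) z0 z

/-- a cluster with at least `n` sites comes within `R` of `x` -/
def LONG (g : Λ) (n R : ℕ) (l : Tor N → Λ) (x : Tor N) : Prop :=
  ∃ z0, nrm (z0 - x) ≤ R ∧ n ≤ (cl g l z0).card

variable {g : Λ} {l : Tor N → Λ}

theorem mem_nsl {z : Tor N} : z ∈ nsl g l ↔ l z ≠ g := by
  classical
  unfold nsl
  rw [mem_filter]
  exact ⟨fun h => h.2, fun h => ⟨mem_univ _, h⟩⟩

theorem mem_cl {z0 z : Tor N} : z ∈ cl g l z0 ↔ Cl5 (nsl g l) z0 z := by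
  classical
  unfold cl
  rw [mem_filter]
  exact ⟨fun h => h.2, fun h => ⟨mem_univ _, h⟩⟩

theorem self_mem_cl (z0 : Tor N) : z0 ∈ cl g l z0 := mem_cl.2 Relation.ReflTransGen.refl

/-! ### connectivity -/

theorem Cl5.mono {S S' : Finset (Tor N)} (h : S ⊆ S') {a b : Tor N} (hab : Cl5 S a b) :
    Cl5 S' a b := by
  induction hab with
  | refl => exact Relation.ReflTransGen.refl
  | tail _ h1 ih => exact Relation.ReflTransGen.tail ih ⟨h h1.1, h h1.2.1, h1.2.2⟩

theorem Cl5.single {S : Finset (Tor N)} {a b : Tor N} (ha : a ∈ S) (hb : b ∈ S)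
    (h : nrm (b - a) ≤ 5) : Cl5 S a b := Relation.ReflTransGen.single ⟨ha, hb, h⟩

/-- a chain which starts in `ns` and does not stay at its start stays in `ns` -/
theorem Cl5.mem_or_eq {S : Finset (Tor N)} {a b : Tor N} (h : Cl5 S a b) : a = b ∨ (a ∈ S ∧ b ∈ S) := by
  induction h with
  | refl => exact Or.inl rfl
  | tail _ h1 ih =>
    rcases ih with rfl | ih
    · exact Or.inr ⟨h1.1, h1.2.1⟩
    · exact Or.inr ⟨ih.1, h1.2.1⟩

/-- the chain from `z0` runs inside the cluster of `z0` -/
theorem Cl5_cl {z0 z : Tor N} (h : Cl5 (nsl g l) z0 z) : Cl5 (cl g l z0) z0 z := by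
  induction h with
  | refl => exact Relation.ReflTransGen.refl
  | tail h0 h1 ih =>
    exact Relation.ReflTransGen.tail ih ⟨mem_cl.2 h0, mem_cl.2 (Relation.ReflTransGen.tail h0 h1), h1.2.2⟩

/-- **clusters are connected** -/
theorem cl_conn (z0 : Tor N) : Conn5 (cl g l z0) := fun a ha b hb =>
  (Cl5_cl (mem_cl.1 ha)).symm.trans (Cl5_cl (mem_cl.1 hb))

/-- clusters are closed under steps of range `5` -/
theorem cl_step {z0 a b : Tor N} (ha : a ∈ cl g l z0) (hla : l a ≠ g) (hlb : l b ≠ g)
    (h : nrm (b - a) ≤ 5) : b ∈ cl g l z0 :=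
  mem_cl.2 ((mem_cl.1 ha).trans (Cl5.single (mem_nsl.2 hla) (mem_nsl.2 hlb) h))

/-- the sites of the cluster of a non-good site are non-good -/
theorem cl_nongood {z0 : Tor N} (h0 : l z0 ≠ g) : ∀ z ∈ cl g l z0, l z ≠ g := by
  intro z hz
  rcases (mem_cl.1 hz).mem_or_eq with h | h
  · rwa [← h]
  · exact mem_nsl.1 h.2

/-- the cluster of a good site is a singleton -/
theorem cl_good {z0 : Tor N} (h0 : l z0 = g) : cl g l z0 = {z0} := by
  ext z
  rw [mem_singleton]
  constructor
  · intro hz
    rcases (mem_cl.1 hz).mem_or_eq with h | h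
    · exact h.symm
    · exact absurd h0 (mem_nsl.1 h.1)
  · rintro rfl
    exact self_mem_cl z

/-- a cluster with at least two sites consists of non-good sites -/
theorem cl_nongood_of_card {z0 : Tor N} (h : 2 ≤ (cl g l z0).card) : l z0 ≠ g := by
  intro h0
  rw [cl_good h0, card_singleton] at h
  omega

theorem cl_nongood_two {z0 : Tor N} (h : 2 ≤ (cl g l z0).card) : ∀ z ∈ cl g l z0, l z ≠ g :=
  cl_nongood (cl_nongood_of_card h)

/-- the cluster of any site of the cluster is the same set -/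
theorem cl_eq {z0 z : Tor N} (hz : z ∈ cl g l z0) : cl g l z = cl g l z0 := by
  ext w
  rw [mem_cl, mem_cl]
  exact ⟨fun h => (mem_cl.1 hz).trans h, fun h => (mem_cl.1 hz).symm.trans h⟩

/-- a range-5 connected set of non-good sites which contains `z0` lies in the cluster of `z0` -/
theorem sub_cl {S : Finset (Tor N)} (hS : Conn5 S) (hg : ∀ z ∈ S, l z ≠ g) {z0 : Tor N}
    (h0 : z0 ∈ S) : S ⊆ cl g l z0 := fun z hz =>
  mem_cl.2 ((hS z0 h0 z hz).mono fun w hw => mem_nsl.2 (hg w hw))

/-! ### size and distance -/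

/-- a chain of range `5` meets every shell of width `5` -/
theorem exists_shell {S : Finset (Tor N)} {a b : Tor N} (ha : a ∈ S) (h : Cl5 S a b) :
    ∀ j, 5 * j ≤ nrm (b - a) → ∃ c ∈ S, nrm (c - a) / 5 = j := by
  induction h with
  | refl =>
    intro j hj
    rw [sub_self, nrm_zero] at hj
    refine ⟨a, ha, ?_⟩
    rw [sub_self, nrm_zero]
    omega
  | @tail b c _ h1 ih =>
    intro j hj
    by_cases hb : 5 * j ≤ nrm (b - a)
    · exact ih j hb
    · refine ⟨c, h1.2.1, ?_⟩
      have h2 : nrm (c - a) ≤ nrm (c - b) + nrm (b - a) := by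
        have e : c - a = (c - b) + (b - a) := by abel
        rw [e]
        exact nrm_add_le _ _
      have h3 := h1.2.2
      omega

/-- **a connected set with two sites at distance `≥ 5 n` has at least `n + 1` sites** -/
theorem card_ge {S : Finset (Tor N)} (hS : Conn5 S) {a b : Tor N} (ha : a ∈ S) (hb : b ∈ S)
    {n : ℕ} (hn : 5 * n ≤ nrm (b - a)) : n + 1 ≤ S.card := by
  classical
  have h := exists_shell ha (hS a ha b hb)
  have hsub : range (n + 1) ⊆ S.image fun c => nrm (c - a) / 5 := by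
    intro j hj
    rw [mem_range] at hj
    obtain ⟨c, hc, hcj⟩ := h j (by omega)
    exact mem_image.2 ⟨c, hc, hcj⟩
  calc n + 1 = (range (n + 1)).card := (card_range _).symm
    _ ≤ (S.image fun c => nrm (c - a) / 5).card := card_le_card hsub
    _ ≤ S.card := card_image_le

theorem nrm_lt {S : Finset (Tor N)} (hS : Conn5 S) {a b : Tor N} (ha : a ∈ S) (hb : b ∈ S) :
    nrm (b - a) < 5 * S.card := by
  have h := card_ge hS ha hb (n := nrm (b - a) / 5) (by omega)
  omega

/-- **diameter of a connected set** -/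
theorem nrm_le {S : Finset (Tor N)} (hS : Conn5 S) {a b : Tor N} (ha : a ∈ S) (hb : b ∈ S) :
    nrm (b - a) ≤ 5 * S.card := (nrm_lt hS ha hb).le

/-! ### blocks are connected -/

theorem Cl5_coord1 {S : Finset (Tor N)} {s : ℕ} (y : ZMod N) :
    ∀ t, s ≤ t → (∀ u, s ≤ u → u ≤ t → (((u : ℕ) : ZMod N), y) ∈ S) →
      Cl5 S (((s : ℕ) : ZMod N), y) (((t : ℕ) : ZMod N), y) := by
  intro t hst
  induction t, hst using Nat.le_induction with
  | base => exact fun _ => Relation.ReflTransGen.refl
  | succ t hst ih =>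
    intro h
    refine (ih fun u h1 h2 => h u h1 (by omega)).trans
      (Cl5.single (h t hst (by omega)) (h (t + 1) (by omega) le_rfl) ?_)
    have e : ((((t + 1 : ℕ) : ZMod N), y) - (((t : ℕ) : ZMod N), y) : Tor N) = (1, 0) := by
      ext <;> simp
    rw [e]
    exact (nrm_nbs (by simp [nbs])).trans (by norm_num)

theorem Cl5_coord2 {S : Finset (Tor N)} {s : ℕ} (y : ZMod N) :
    ∀ t, s ≤ t → (∀ u, s ≤ u → u ≤ t → (y, ((u : ℕ) : ZMod N)) ∈ S) →
      Cl5 S (y, ((s : ℕ) : ZMod N)) (y, ((t : ℕ) : ZMod N)) := by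
  intro t hst
  induction t, hst using Nat.le_induction with
  | base => exact fun _ => Relation.ReflTransGen.refl
  | succ t hst ih =>
    intro h
    refine (ih fun u h1 h2 => h u h1 (by omega)).trans
      (Cl5.single (h t hst (by omega)) (h (t + 1) (by omega) le_rfl) ?_)
    have e : ((y, ((t + 1 : ℕ) : ZMod N)) - (y, ((t : ℕ) : ZMod N)) : Tor N) = (0, 1) := by
      ext <;> simp
    rw [e]
    exact (nrm_nbs (by simp [nbs])).trans (by norm_num)

theorem div_between {m a b u : ℕ} (h : a / m = b / m) (hu : a ≤ u) (hu' : u ≤ b) : u / m = a / m :=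
  le_antisymm (h ▸ Nat.div_le_div_right hu') (Nat.div_le_div_right hu)

/-- **the blocks of the grid are connected by unit steps** (no divisibility needed) -/
theorem block_Cl5 {S : Finset (Tor N)} {m : ℕ} {a b : Tor N} (hab : bi m a = bi m b)
    (h : ∀ w, bi m w = bi m a → w ∈ S) : Cl5 S a b := by
  have h1 : a.1.val / m = b.1.val / m := congrArg Prod.fst hab
  have h2 : a.2.val / m = b.2.val / m := congrArg Prod.snd hab
  -- first coordinate
  have key1 : ∀ (s t : ℕ) (y : ZMod N), s ≤ t → t < N → s / m = t / m →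
      t / m = a.1.val / m → y.val / m = a.2.val / m →
      Cl5 S (((s : ℕ) : ZMod N), y) (((t : ℕ) : ZMod N), y) := by
    intro s t y hst htN he h3 h4
    refine Cl5_coord1 y t hst fun u hu1 hu2 => h _ ?_
    have hv : ((u : ℕ) : ZMod N).val = u := ZMod.val_natCast_of_lt (by omega)
    unfold bi
    rw [hv, h4, div_between he hu1 hu2, he, h3]
  have key2 : ∀ (s t : ℕ) (y : ZMod N), s ≤ t → t < N → s / m = t / m →
      t / m = a.2.val / m → y.val / m = a.1.val / m →
      Cl5 S (y, ((s : ℕ) : ZMod N)) (y, ((t : ℕ) : ZMod N)) := by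
    intro s t y hst htN he h3 h4
    refine Cl5_coord2 y t hst fun u hu1 hu2 => h _ ?_
    have hv : ((u : ℕ) : ZMod N).val = u := ZMod.val_natCast_of_lt (by omega)
    unfold bi
    rw [hv, h4, div_between he hu1 hu2, he, h3]
  have hval : ∀ z : ZMod N, ((z.val : ℕ) : ZMod N) = z := fun z => ZMod.natCast_zmod_val z
  have s1 : Cl5 S a (b.1, a.2) := by
    rcases le_total a.1.val b.1.val with hle | hle
    · have := key1 a.1.val b.1.val a.2 hle (ZMod.val_lt _) h1 h1.symm rfl
      rwa [hval, hval] at this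
    · have := key1 b.1.val a.1.val a.2 hle (ZMod.val_lt _) h1.symm rfl rfl
      rw [hval, hval] at this
      exact this.symm
  have s2 : Cl5 S (b.1, a.2) b := by
    rcases le_total a.2.val b.2.val with hle | hle
    · have := key2 a.2.val b.2.val b.1 hle (ZMod.val_lt _) h2 h2.symm h1.symm
      rwa [hval, hval] at this
    · have := key2 b.2.val a.2.val b.1 hle (ZMod.val_lt _) h2.symm rfl h1.symm
      rw [hval, hval] at this
      exact this.symm
  exact s1.trans s2

/-- **clusters contain every matched block which they meet** (any label pattern without `g`) -/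
theorem cl_closed' {m : ℕ} {P : Loc → Λ} (hP : ∀ a, P a ≠ g) {z0 z a : Tor N}
    (hM : ∀ w, bi m w = bi m z → l w = P (lc m w)) (ha : a ∈ cl g l z0)
    (haz : bi m a = bi m z) : z ∈ cl g l z0 := by
  have h : Cl5 (nsl g l) a z := by
    refine block_Cl5 haz fun w hw => mem_nsl.2 ?_
    rw [hM w (hw.trans haz)]
    exact hP _
  exact mem_cl.2 ((mem_cl.1 ha).trans h)

/-! ### chains -/

/-- **an injective chain of `n` non-good sites with steps of length at most `5`, starting within
`R` of `x`, gives `LONG n R`** -/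
theorem long_of_chain {n R : ℕ} {x : Tor N} (p : ℕ → Tor N) (hp : ∀ i < n, l (p i) ≠ g)
    (hst : ∀ i, i + 1 < n → nrm (p (i + 1) - p i) ≤ 5)
    (hinj : ∀ i < n, ∀ j < n, p i = p j → i = j) (h0 : nrm (p 0 - x) ≤ R) : LONG g n R l x := by
  classical
  refine ⟨p 0, h0, ?_⟩
  have hmem : ∀ i < n, p i ∈ cl g l (p 0) := by
    intro i
    induction i with
    | zero => exact fun _ => self_mem_cl _
    | succ i ih =>
      intro hi
      exact cl_step (ih (by omega)) (hp i (by omega)) (hp (i + 1) hi) (hst i hi)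
  have hsub : (range n).image p ⊆ cl g l (p 0) := by
    intro z hz
    obtain ⟨i, hi, rfl⟩ := mem_image.1 hz
    exact hmem i (mem_range.1 hi)
  have hc : ((range n).image p).card = n := by
    rw [card_image_of_injOn, card_range]
    intro i hi j hj he
    exact hinj i (mem_range.1 (mem_coe.1 hi)) j (mem_range.1 (mem_coe.1 hj)) he
  calc n = ((range n).image p).card := hc.symm
    _ ≤ _ := card_le_card hsub

/-- distance from the graph distance -/
theorem nrm_of_near {n : ℕ} {a b : Tor N} (h : Peel.near (Peel.rA (AT N)) n a b) :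
    nrm (b - a) ≤ n := by
  induction n generalizing b with
  | zero =>
    have h' : a = b := h
    rw [h', sub_self, nrm_zero]
  | succ n ih =>
    obtain ⟨c, hc, h1⟩ := h
    have h2 := ih hc
    rcases h1 with rfl | h1
    · omega
    · have h3 : nrm (b - c) ≤ 1 := by
        refine nrm_nbs ?_
        by_contra hcon
        exact h1 (by simp [AT, hcon])
      have e : b - a = (b - c) + (c - a) := by abel
      rw [e]
      exact (nrm_add_le _ _).trans (by omega)

/-- the same from 963's `long_chain` (range-3 chains in the graph metric) -/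
theorem long_of_near_chain {n R : ℕ} {x : Tor N} {S : Finset (Tor N)} (hS : ∀ z ∈ S, l z ≠ g)
    (p : ℕ → Tor N) (hp : ∀ i ≤ n, p i ∈ S)
    (hst : ∀ i < n, Peel.near (Peel.rA (AT N)) 3 (p i) (p (i + 1)))
    (hinj : ∀ i ≤ n, ∀ j ≤ n, p i = p j → i = j) (h0 : nrm (p 0 - x) ≤ R) :
    LONG g (n + 1) R l x :=
  long_of_chain p (fun i hi => hS _ (hp i (by omega)))
    (fun i hi => (nrm_of_near (hst i (by omega))).trans (by norm_num))
    (fun i hi j hj => hinj i (by omega) j (by omega)) h0

/-- a removed site at graph distance `≤ j` from `a`, `a` far inside the window, window within `R`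
of `x` -/
theorem long_of_Rm {Q0 S : Finset (Tor N)} {m j R : ℕ} {a t x : Tor N} (hS : ∀ z ∈ S, l z ≠ g)
    (ht : Peel.Rm (Peel.rA (AT N)) Q0 S t) (hat : Peel.near (Peel.rA (AT N)) j a t)
    (hfar : ∀ c, Peel.near (Peel.rA (AT N)) (3 * m + 3 + j) a c → c ∈ Q0)
    (hQ : ∀ c ∈ Q0, nrm (c - x) ≤ R) : LONG g (m + 1) R l x := by
  obtain ⟨p, hp, hst, hinj⟩ := Peel.long_chain (Peel.rA_symm (AT_symm N)) ht hat hfar
  exact long_of_near_chain hS p (fun i hi => (hp i hi).1) hst hinj (hQ _ (hp 0 (Nat.zero_le _)).2)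

theorem LONG.mono {n n' R R' : ℕ} {x : Tor N} (hn : n' ≤ n) (hR : R ≤ R')
    (h : LONG g n R l x) : LONG g n' R' l x := by
  obtain ⟨z0, h1, h2⟩ := h
  exact ⟨z0, h1.trans hR, hn.trans h2⟩

end P365T1

namespace Vale.Agent.P365.J376

open P365L P365T1

variable {D : V3} {N : ℕ} [NeZero N] {l : Tor N → D.Λ}

/-- **clusters of non-good sites contain every matched block which they meet** -/
theorem cl_closed (hpat : ∀ j ≤ D.I, ∀ a, D.pat j a ≠ D.good) (z0 : Tor N) :
    ∀ j ≤ D.I, ∀ z, D.Mat j l z → (∃ a ∈ cl D.good l z0, bi (D.m j) a = bi (D.m j) z) →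
      z ∈ cl D.good l z0 := by
  intro j hj z hM ⟨a, ha, haz⟩
  exact cl_closed' (hpat j hj) hM ha haz

end Vale.Agent.P365.J376
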