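import Vale.Agent.P365.T1.Animals770
import Vale.Agent.P365.T1.GeoDef37

/-!
# P365-T1 (B7): lattice animals in the form of `H509`
-/

set_option linter.all false

namespace P365T1

open P365L Finset

variable {N : ℕ} [NeZero N]

/-- range-five connected set -/
def Conn5 (S : Finset (Tor N)) : Prop := ∀ a ∈ S, ∀ b ∈ S, Cl5 S a b

theorem Conn5.con {S : Finset (Tor N)} (h : Conn5 S) {v : Tor N} (hv : v ∈ S) :
    Ani.Con Ani.R5 S v := ⟨hv, fun a ha => h v hv a ha⟩

theorem conn5_of_con {S : Finset (Tor N)} {v : Tor N} (h : Ani.Con Ani.R5 S v) : Conn5 S :=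
  fun a ha b hb => (Ani.reach_symm Ani.R5_symm (h.2 a ha)).trans (h.2 b hb)

/-- weighted animal sum -/
theorem animals_tail (z : Tor N) {w : ℝ} (hw : 0 ≤ w) (hw1 : 400 * w ≤ 1) (s : ℕ)
    [DecidablePred fun S : Finset (Tor N) => z ∈ S ∧ s ≤ S.card ∧ Conn5 S] :
    ∑ S ∈ (univ.filter fun S : Finset (Tor N) =>
      z ∈ S ∧ s ≤ S.card ∧ Conn5 S), w ^ S.card ≤ (400 * w) ^ s / 120 := by
  classical
  refine le_trans ?_ (Ani.tail z hw hw1 s)
  refine sum_le_sum_of_subset_of_nonneg ?_ fun S _ _ => by positivity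
  intro S hS
  rw [mem_filter] at hS
  exact Ani.mem_Anm.2 ⟨(hS.2.2.2).con hS.2.1, hS.2.2.1⟩

/-- the same with two extra factors `|S|` -/
theorem animals_tail_sq (z : Tor N) {w : ℝ} (hw : 0 ≤ w) (hw1 : 1600 * w ≤ 1) (s : ℕ)
    [DecidablePred fun S : Finset (Tor N) => z ∈ S ∧ s ≤ S.card ∧ Conn5 S] :
    ∑ S ∈ (univ.filter fun S : Finset (Tor N) =>
      z ∈ S ∧ s ≤ S.card ∧ Conn5 S), (S.card : ℝ) ^ 2 * w ^ S.card ≤ (1600 * w) ^ s / 120 := by
  classical
  refine le_trans ?_ (Ani.tail_sq z hw hw1 s)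
  refine sum_le_sum_of_subset_of_nonneg ?_ fun S _ _ => by positivity
  intro S hS
  rw [mem_filter] at hS
  exact Ani.mem_Anm.2 ⟨(hS.2.2.2).con hS.2.1, hS.2.2.1⟩

/-- extended nonnegative form -/
theorem animals_tail_ennreal (z : Tor N) {w : ℝ} (hw : 0 ≤ w) (hw1 : 400 * w ≤ 1) (s : ℕ)
    [DecidablePred fun S : Finset (Tor N) => z ∈ S ∧ s ≤ S.card ∧ Conn5 S] :
    ∑ S ∈ (univ.filter fun S : Finset (Tor N) =>
      z ∈ S ∧ s ≤ S.card ∧ Conn5 S), ENNReal.ofReal w ^ S.card ≤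
      ENNReal.ofReal ((400 * w) ^ s / 120) := by
  classical
  refine le_trans ?_ (Ani.tail_ennreal z hw hw1 s)
  refine sum_le_sum_of_subset_of_nonneg ?_ fun S _ _ => zero_le
  intro S hS
  rw [mem_filter] at hS
  exact Ani.mem_Anm.2 ⟨(hS.2.2.2).con hS.2.1, hS.2.2.1⟩

/-- the number of animals of size `s` containing `z` is at most `400 ^ s` -/
theorem animals (z : Tor N) (s : ℕ)
    [DecidablePred fun S : Finset (Tor N) => z ∈ S ∧ S.card = s ∧ Conn5 S] :
    (univ.filter fun S : Finset (Tor N) => z ∈ S ∧ S.card = s ∧ Conn5 S).card ≤ 400 ^ s := by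
  classical
  have h1 := Ani.count z s
  have h2 : (univ.filter fun S : Finset (Tor N) => z ∈ S ∧ S.card = s ∧ Conn5 S).card ≤
      ((univ : Finset (Finset (Tor N))).filter fun S => Ani.Con Ani.R5 S z ∧ S.card = s).card := by
    refine card_le_card ?_
    intro S hS
    rw [mem_filter] at hS ⊢
    exact ⟨hS.1, (hS.2.2.2).con hS.2.1, hS.2.2.1⟩
  have h3 : (((univ : Finset (Finset (Tor N))).filter fun S =>
      Ani.Con Ani.R5 S z ∧ S.card = s).card : ℝ) ≤ 400 ^ s :=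
    h1.trans (div_le_self (by positivity) (by norm_num))
  have h4 : ((univ : Finset (Finset (Tor N))).filter fun S =>
      Ani.Con Ani.R5 S z ∧ S.card = s).card ≤ 400 ^ s := by exact_mod_cast h3
  convert h2.trans h4

/-- radius bound -/
theorem Conn5.nrm_le {S : Finset (Tor N)} (h : Conn5 S) {a b : Tor N} (ha : a ∈ S) (hb : b ∈ S) :
    nrm (b - a) + 5 ≤ 5 * S.card := Ani.nrm_le_of_con (h.con ha) hb

end P365T1
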