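import Vale.Agent.P365.H509.Cl908

/-!
# P365-T1 (B7): 770's clusters `Ani.Kc Ani.R5 ns v` contain every matched block which they meet
-/

set_option linter.all false

namespace P365T1

open P365L Finset

variable {N : ℕ} [NeZero N] {Λ : Type*} {g : Λ} {l : Tor N → Λ} {ns : Finset (Tor N)}

theorem Cl5_iff {S : Finset (Tor N)} {a b : Tor N} :
    Cl5 S a b ↔ Relation.ReflTransGen (Ani.Lk Ani.R5 S) a b := Iff.rfl

theorem mem_KcR5 {v z : Tor N} : z ∈ Ani.Kc Ani.R5 ns v ↔ z ∈ ns ∧ Cl5 ns v z := Ani.mem_Kc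

/-- blocks without good sites -/
theorem KcR5_closed' (hns : ∀ w, l w ≠ g → w ∈ ns) {m : ℕ} {P : Loc → Λ} (hP : ∀ a, P a ≠ g)
    {v z a : Tor N} (hM : ∀ w, bi m w = bi m z → l w = P (lc m w))
    (ha : a ∈ Ani.Kc Ani.R5 ns v) (haz : bi m a = bi m z) : z ∈ Ani.Kc Ani.R5 ns v := by
  have hblk : ∀ w, bi m w = bi m z → w ∈ ns := by
    intro w hw
    refine hns w ?_
    rw [hM w hw]
    exact hP _
  rw [mem_KcR5] at ha ⊢
  exact ⟨hblk z rfl, ha.2.trans (block_Cl5 haz fun w hw => hblk w (hw.trans haz))⟩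

/-- 770's cluster of a non-good site and the cluster `cl` are the same set -/
theorem KcR5_eq_cl (hns : ∀ w, w ∈ ns ↔ l w ≠ g) {v : Tor N} (hv : l v ≠ g) :
    Ani.Kc Ani.R5 ns v = cl g l v := by
  have e : ns = nsl g l := by
    ext w
    rw [hns, mem_nsl]
  subst e
  ext z
  rw [mem_KcR5, mem_cl]
  refine ⟨fun h => h.2, fun h => ⟨?_, h⟩⟩
  rcases h.mem_or_eq with h' | h'
  · rw [← h']
    exact mem_nsl.2 hv
  · exact h'.2

/-- whole clusters are connected in the sense of `Conn5` -/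
theorem Conn5_KcR5 (v : Tor N) : Conn5 (Ani.Kc Ani.R5 ns v) := by
  intro a ha b hb
  have hv : v ∈ ns := by
    rcases (mem_KcR5.1 ha).2.mem_or_eq with h | h
    · rw [h]
      exact (mem_KcR5.1 ha).1
    · exact h.1
  exact conn5_of_con (Ani.con_cluster hv) a ha b hb

/-- if the cluster has a site then its base point is in `ns` -/
theorem mem_of_mem_KcR5 {v a : Tor N} (ha : a ∈ Ani.Kc Ani.R5 ns v) : v ∈ ns := by
  rcases (mem_KcR5.1 ha).2.mem_or_eq with h | h
  · rw [h]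
    exact (mem_KcR5.1 ha).1
  · exact h.1

/-- sites of the cluster are in `ns` -/
theorem KcR5_sub (v : Tor N) : Ani.Kc Ani.R5 ns v ⊆ ns := fun a ha => (mem_KcR5.1 ha).1

/-- the cluster is closed under steps of range `5` in `ns` -/
theorem KcR5_step {v a b : Tor N} (ha : a ∈ Ani.Kc Ani.R5 ns v) (hb : b ∈ ns)
    (h : nrm (b - a) ≤ 5) : b ∈ Ani.Kc Ani.R5 ns v := by
  rw [mem_KcR5] at ha ⊢
  exact ⟨hb, ha.2.trans (Cl5.single ha.1 hb h)⟩

/-- an injective chain of `n` sites of `ns` with steps of length at most `5` lies in one cluster -/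
theorem KcR5_card_of_chain {n : ℕ} (p : ℕ → Tor N) (hn : 0 < n) (hp : ∀ i < n, p i ∈ ns)
    (hst : ∀ i, i + 1 < n → nrm (p (i + 1) - p i) ≤ 5)
    (hinj : ∀ i < n, ∀ j < n, p i = p j → i = j) :
    n ≤ (Ani.Kc Ani.R5 ns (p 0)).card := by
  classical
  have hmem : ∀ i < n, p i ∈ Ani.Kc Ani.R5 ns (p 0) := by
    intro i
    induction i with
    | zero => exact fun _ => mem_KcR5.2 ⟨hp 0 hn, Relation.ReflTransGen.refl⟩
    | succ i ih => exact fun hi => KcR5_step (ih (by omega)) (hp (i + 1) hi) (hst i hi)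
  have hsub : (range n).image p ⊆ Ani.Kc Ani.R5 ns (p 0) := by
    intro z hz
    obtain ⟨i, hi, rfl⟩ := mem_image.1 hz
    exact hmem i (mem_range.1 hi)
  have hc : ((range n).image p).card = n := by
    rw [card_image_of_injOn, card_range]
    intro i hi j hj he
    exact hinj i (mem_range.1 (mem_coe.1 hi)) j (mem_range.1 (mem_coe.1 hj)) he
  calc n = ((range n).image p).card := hc.symm
    _ ≤ _ := card_le_card hsub

end P365T1

namespace Vale.Agent.P365.J376

open P365L P365T1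

variable {D : V3} {N : ℕ} [NeZero N] {l : Tor N → D.Λ}

/-- **770's clusters of non-good sites contain every matched block which they meet** -/
theorem KcR5_closed (hpat : ∀ j ≤ D.I, ∀ a, D.pat j a ≠ D.good) {ns : Finset (Tor N)}
    (hns : ∀ w, l w ≠ D.good → w ∈ ns) (v : Tor N) :
    ∀ j ≤ D.I, ∀ z, D.Mat j l z → (∃ a ∈ Ani.Kc Ani.R5 ns v, bi (D.m j) a = bi (D.m j) z) →
      z ∈ Ani.Kc Ani.R5 ns v := by
  intro j hj z hM ⟨a, ha, haz⟩
  exact KcR5_closed' hns (hpat j hj) hM ha haz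

/-- the same for `ns = univ.filter (l · ≠ D.good)` -/
theorem KcR5_closed_filter (hpat : ∀ j ≤ D.I, ∀ a, D.pat j a ≠ D.good)
    [DecidablePred fun w : Tor N => l w ≠ D.good] (v : Tor N) :
    ∀ j ≤ D.I, ∀ z, D.Mat j l z →
      (∃ a ∈ Ani.Kc Ani.R5 (Finset.univ.filter fun w => l w ≠ D.good) v,
        bi (D.m j) a = bi (D.m j) z) →
      z ∈ Ani.Kc Ani.R5 (Finset.univ.filter fun w => l w ≠ D.good) v :=
  KcR5_closed hpat (fun w hw => Finset.mem_filter.2 ⟨Finset.mem_univ _, hw⟩) v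

end Vale.Agent.P365.J376
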