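import Vale.Agent.P365.H509.Animals770

/-!
# P365-T1 (B7): the counting lemma of `LONG`
-/

set_option linter.all false

namespace P365T1.H770

open P365L P365T1 Finset ENNReal

variable {N : ℕ} [NeZero N]

/-- balls of the torus -/
theorem card_ball_le (a : Tor N) (R : ℕ) :
    (univ.filter fun b : Tor N => nrm (a - b) ≤ R).card ≤ (2 * R + 1) ^ 2 := by
  have h : (univ.filter fun b : Tor N => nrm (a - b) ≤ R) ⊆ (pbox R).image fun p => a + tor N p := by
    intro b hb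
    have hb' : nrm (b - a) ≤ R := by
      rw [nrm_sub_comm]; exact (mem_filter.1 hb).2
    unfold nrm at hb'
    have h1 := (le_max_left _ _).trans hb'
    have h2 := (le_max_right _ _).trans hb'
    refine mem_image.2 ⟨((b - a).1.valMinAbs, (b - a).2.valMinAbs), ?_, ?_⟩
    · simp only [pbox, mem_product, mem_Icc]
      omega
    · ext <;> simp [tor, ZMod.coe_valMinAbs]
  calc (univ.filter fun b : Tor N => nrm (a - b) ≤ R).card
      ≤ ((pbox R).image fun p => a + tor N p).card := card_le_card h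
    _ ≤ (pbox R).card := card_image_le
    _ = (2 * R + 1) ^ 2 := card_pbox R

/-- connected sets with at least `n` sites, some of them within `R` of `x` -/
noncomputable def SS (n R : ℕ) (x : Tor N) : Finset (Finset (Tor N)) :=
  open Classical in univ.filter fun S => Conn5 S ∧ n ≤ S.card ∧ ∃ v ∈ S, nrm (v - x) ≤ R

theorem mem_SS {n R : ℕ} {x : Tor N} {S : Finset (Tor N)} :
    S ∈ SS n R x ↔ Conn5 S ∧ n ≤ S.card ∧ ∃ v ∈ S, nrm (v - x) ≤ R := by
  classical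
  simp [SS]

theorem SS_eq (n R : ℕ) (x : Tor N) [DecidablePred fun S : Finset (Tor N) =>
    Conn5 S ∧ n ≤ S.card ∧ ∃ v ∈ S, nrm (v - x) ≤ R] :
    SS n R x = univ.filter fun S : Finset (Tor N) =>
      Conn5 S ∧ n ≤ S.card ∧ ∃ v ∈ S, nrm (v - x) ≤ R := by
  ext S; rw [mem_SS]; simp

/-- connected sets through `v` with at least `n` sites -/
noncomputable def SV (n : ℕ) (v : Tor N) : Finset (Finset (Tor N)) :=
  open Classical in univ.filter fun S => v ∈ S ∧ n ≤ S.card ∧ Conn5 S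

theorem mem_SV {n : ℕ} {v : Tor N} {S : Finset (Tor N)} :
    S ∈ SV n v ↔ v ∈ S ∧ n ≤ S.card ∧ Conn5 S := by
  classical
  simp [SV]

theorem sum_SS_le (w : ℕ → ℝ≥0∞) (n R : ℕ) {G : ℝ≥0∞}
    (hG : ∀ v : Tor N, ∑ S ∈ SV n v, w S.card ≤ G) (x : Tor N) :
    ∑ S ∈ SS n R x, w S.card ≤ ((2 * R + 1) ^ 2 : ℕ) * G := by
  classical
  calc ∑ S ∈ SS n R x, w S.card
      ≤ ∑ S ∈ SS n R x, ∑ v ∈ univ.filter fun v : Tor N => nrm (x - v) ≤ R,
          (if S ∈ SV n v then w S.card else 0) := by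
        refine sum_le_sum fun S hS => ?_
        obtain ⟨h1, h2, v, h3, h4⟩ := mem_SS.1 hS
        have hv : v ∈ univ.filter fun v : Tor N => nrm (x - v) ≤ R :=
          mem_filter.2 ⟨mem_univ _, by rwa [nrm_sub_comm]⟩
        calc w S.card = if S ∈ SV n v then w S.card else 0 := by
              rw [if_pos (mem_SV.2 ⟨h3, h2, h1⟩)]
          _ ≤ _ := single_le_sum (f := fun v => if S ∈ SV n v then w S.card else 0)
              (fun _ _ => zero_le) hv
    _ = ∑ v ∈ univ.filter fun v : Tor N => nrm (x - v) ≤ R, ∑ S ∈ SS n R x,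
          (if S ∈ SV n v then w S.card else 0) := sum_comm
    _ ≤ ∑ v ∈ univ.filter fun v : Tor N => nrm (x - v) ≤ R, ∑ S ∈ SV n v, w S.card := by
        refine sum_le_sum fun v _ => ?_
        calc ∑ S ∈ SS n R x, (if S ∈ SV n v then w S.card else 0)
            ≤ ∑ S : Finset (Tor N), (if S ∈ SV n v then w S.card else 0) :=
              sum_le_sum_of_subset (subset_univ _)
          _ = ∑ S ∈ SV n v, w S.card := by rw [sum_ite_mem, univ_inter]
    _ ≤ ∑ v ∈ univ.filter fun v : Tor N => nrm (x - v) ≤ R, G := sum_le_sum fun v _ => hG v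
    _ = ((univ.filter fun v : Tor N => nrm (x - v) ≤ R).card : ℝ≥0∞) * G := by
        rw [sum_const, nsmul_eq_mul]
    _ ≤ ((2 * R + 1) ^ 2 : ℕ) * G := by
        gcongr
        exact card_ball_le x R

/-- **counting lemma, general weight** -/
theorem count_gen (a : Tor N → ℝ≥0∞) (w : ℕ → ℝ≥0∞) (n R : ℕ) {G G' : ℝ≥0∞}
    (hG : ∀ v : Tor N, ∑ S ∈ SV n v, w S.card ≤ G)
    (hG' : ∀ v : Tor N, ∑ S ∈ SV n v, (S.card : ℝ≥0∞) * w S.card ≤ G') :
    ∑ x, ∑ S ∈ SS n R x, w S.card * ∑ z ∈ insert x S, a z ≤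
      ((2 * R + 1) ^ 2 : ℕ) * (G + G') * ∑ z, a z := by
  classical
  have h1 : ∀ x : Tor N, ∑ S ∈ SS n R x, w S.card * ∑ z ∈ insert x S, a z ≤
      a x * ∑ S ∈ SS n R x, w S.card + ∑ S ∈ SS n R x, ∑ z ∈ S, w S.card * a z := by
    intro x
    rw [mul_sum, ← sum_add_distrib]
    refine sum_le_sum fun S _ => ?_
    have h2 : ∑ z ∈ insert x S, a z ≤ a x + ∑ z ∈ S, a z := by
      by_cases hx : x ∈ S
      · rw [insert_eq_of_mem hx]; exact le_add_self
      · rw [sum_insert hx]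
    calc w S.card * ∑ z ∈ insert x S, a z ≤ w S.card * (a x + ∑ z ∈ S, a z) := by gcongr
      _ = a x * w S.card + ∑ z ∈ S, w S.card * a z := by
          rw [mul_add, mul_comm (w S.card) (a x), mul_sum]
  have h3 : ∑ x : Tor N, ∑ S ∈ SS n R x, ∑ z ∈ S, w S.card * a z ≤
      ∑ z : Tor N, a z * (((2 * R + 1) ^ 2 : ℕ) * G') := by
    -- exchange
    have e1 : ∑ x : Tor N, ∑ S ∈ SS n R x, ∑ z ∈ S, w S.card * a z =
        ∑ z : Tor N, ∑ S ∈ SV n z, ∑ x ∈ univ.filter (fun x : Tor N => ∃ v ∈ S, nrm (v - x) ≤ R),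
          w S.card * a z := by
      have e2 : ∀ x : Tor N, ∑ S ∈ SS n R x, ∑ z ∈ S, w S.card * a z =
          ∑ S : Finset (Tor N), ∑ z : Tor N,
            if (Conn5 S ∧ n ≤ S.card ∧ ∃ v ∈ S, nrm (v - x) ≤ R) ∧ z ∈ S then w S.card * a z
            else 0 := by
        intro x
        unfold SS
        rw [sum_filter]
        refine sum_congr rfl fun S _ => ?_
        by_cases h : Conn5 S ∧ n ≤ S.card ∧ ∃ v ∈ S, nrm (v - x) ≤ R
        · rw [if_pos h]
          simp only [h, true_and]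
          rw [← sum_filter]
          congr 1
          ext z; simp
        · rw [if_neg h]
          simp only [h, false_and, if_false, sum_const_zero]
      have e3 : ∀ z : Tor N, ∑ S ∈ SV n z,
          ∑ x ∈ univ.filter (fun x : Tor N => ∃ v ∈ S, nrm (v - x) ≤ R), w S.card * a z =
          ∑ S : Finset (Tor N), ∑ x : Tor N,
            if (Conn5 S ∧ n ≤ S.card ∧ ∃ v ∈ S, nrm (v - x) ≤ R) ∧ z ∈ S then w S.card * a z
            else 0 := by
        intro z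
        unfold SV
        rw [sum_filter]
        refine sum_congr rfl fun S _ => ?_
        by_cases h : z ∈ S ∧ n ≤ S.card ∧ Conn5 S
        · rw [if_pos h, sum_filter]
          refine sum_congr rfl fun x _ => ?_
          by_cases h' : ∃ v ∈ S, nrm (v - x) ≤ R
          · rw [if_pos h', if_pos ⟨⟨h.2.2, h.2.1, h'⟩, h.1⟩]
          · rw [if_neg h', if_neg (fun hc => h' hc.1.2.2)]
        · rw [if_neg h]
          symm
          refine sum_eq_zero fun x _ => if_neg fun hc => h ⟨hc.2, hc.1.2.1, hc.1.1⟩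
      simp only [e2, e3]
      rw [sum_comm]
      rw [sum_congr rfl (fun S _ => sum_comm)]
      rw [sum_comm]
    rw [e1]
    refine sum_le_sum fun z _ => ?_
    have h4 : ∀ S : Finset (Tor N),
        (univ.filter (fun x : Tor N => ∃ v ∈ S, nrm (v - x) ≤ R)).card ≤
          S.card * (2 * R + 1) ^ 2 := by
      intro S
      have h5 : (univ.filter (fun x : Tor N => ∃ v ∈ S, nrm (v - x) ≤ R)) ⊆
          S.biUnion fun v => univ.filter fun x : Tor N => nrm (v - x) ≤ R := by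
        intro x hx
        obtain ⟨v, hv, hvx⟩ := (mem_filter.1 hx).2
        exact mem_biUnion.2 ⟨v, hv, mem_filter.2 ⟨mem_univ _, hvx⟩⟩
      calc _ ≤ _ := card_le_card h5
        _ ≤ S.card * (2 * R + 1) ^ 2 := card_biUnion_le_card_mul _ _ _ fun v _ => card_ball_le v R
    calc ∑ S ∈ SV n z, ∑ x ∈ univ.filter (fun x : Tor N => ∃ v ∈ S, nrm (v - x) ≤ R),
          w S.card * a z
        ≤ ∑ S ∈ SV n z, ((2 * R + 1) ^ 2 : ℕ) * ((S.card : ℝ≥0∞) * w S.card) * a z := by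
          refine sum_le_sum fun S _ => ?_
          rw [sum_const, nsmul_eq_mul]
          calc ((univ.filter (fun x : Tor N => ∃ v ∈ S, nrm (v - x) ≤ R)).card : ℝ≥0∞) *
                (w S.card * a z)
              ≤ ((S.card * (2 * R + 1) ^ 2 : ℕ) : ℝ≥0∞) * (w S.card * a z) := by
                gcongr
                exact h4 S
            _ = ((2 * R + 1) ^ 2 : ℕ) * ((S.card : ℝ≥0∞) * w S.card) * a z := by
                rw [Nat.cast_mul]; ring
      _ = a z * (((2 * R + 1) ^ 2 : ℕ) * ∑ S ∈ SV n z, (S.card : ℝ≥0∞) * w S.card) := by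
          rw [← sum_mul, ← mul_sum, mul_comm]
      _ ≤ a z * (((2 * R + 1) ^ 2 : ℕ) * G') := by
          gcongr
          exact hG' z
  calc ∑ x, ∑ S ∈ SS n R x, w S.card * ∑ z ∈ insert x S, a z
      ≤ ∑ x : Tor N, (a x * ∑ S ∈ SS n R x, w S.card +
          ∑ S ∈ SS n R x, ∑ z ∈ S, w S.card * a z) := sum_le_sum fun x _ => h1 x
    _ = ∑ x : Tor N, a x * ∑ S ∈ SS n R x, w S.card +
          ∑ x : Tor N, ∑ S ∈ SS n R x, ∑ z ∈ S, w S.card * a z := sum_add_distrib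
    _ ≤ ∑ x : Tor N, a x * (((2 * R + 1) ^ 2 : ℕ) * G) +
          ∑ z : Tor N, a z * (((2 * R + 1) ^ 2 : ℕ) * G') := by
        refine add_le_add (sum_le_sum fun x _ => ?_) h3
        gcongr
        exact sum_SS_le w n R hG x
    _ = ((2 * R + 1) ^ 2 : ℕ) * (G + G') * ∑ z, a z := by
        rw [← sum_mul, ← sum_mul]; ring

/-- polynomial against exponential -/
theorem pow11_le (m : ℕ) : (m + 1) ^ 11 ≤ 130000 * 5 ^ m := by
  by_cases h6 : m < 6
  · interval_cases m <;> norm_num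
  · push Not at h6
    induction m, h6 using Nat.le_induction with
    | base => norm_num
    | succ k hk ih =>
      have ih' := ih
      have h1 : 7 * (k + 1 + 1) ≤ 8 * (k + 1) := by omega
      have h2 : (7 * (k + 1 + 1)) ^ 11 ≤ (8 * (k + 1)) ^ 11 := Nat.pow_le_pow_left h1 11
      rw [mul_pow, mul_pow] at h2
      have h3 : (7 : ℕ) ^ 11 * (k + 1 + 1) ^ 11 ≤ 7 ^ 11 * (5 * (k + 1) ^ 11) := by
        refine h2.trans ?_
        rw [← mul_assoc]
        exact Nat.mul_le_mul_right _ (by norm_num)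
      have h4 : (k + 1 + 1) ^ 11 ≤ 5 * (k + 1) ^ 11 := Nat.le_of_mul_le_mul_left h3 (by norm_num)
      calc (k + 1 + 1) ^ 11 ≤ 5 * (k + 1) ^ 11 := h4
        _ ≤ 5 * (130000 * 5 ^ k) := Nat.mul_le_mul_left _ ih'
        _ = 130000 * 5 ^ (k + 1) := by rw [pow_succ]; ring

theorem sum_SV_le (n : ℕ) (v : Tor N) {C1 θ : ℝ} (hC : 0 ≤ C1) (hθ : 0 ≤ θ) (hθ1 : θ ≤ 1 / 4096)
    {u : ℕ → ℝ} (hu0 : ∀ m, 0 ≤ u m) (hu : ∀ m, u m ≤ C1 * (m + 1) ^ 11 * θ ^ m) :
    ∑ S ∈ SV n v, ENNReal.ofReal (u S.card) ≤ ENNReal.ofReal (C1 * 1084 * (1 / 2) ^ n) := by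
  classical
  rw [← ENNReal.ofReal_sum_of_nonneg fun S _ => hu0 _]
  refine ENNReal.ofReal_le_ofReal ?_
  have h1 : ∀ m : ℕ, u m ≤ C1 * 130000 * (5 * θ) ^ m := by
    intro m
    have h2 : ((m : ℝ) + 1) ^ 11 ≤ 130000 * 5 ^ m := by exact_mod_cast pow11_le m
    calc u m ≤ C1 * (m + 1) ^ 11 * θ ^ m := hu m
      _ ≤ C1 * (130000 * 5 ^ m) * θ ^ m := by gcongr
      _ = C1 * 130000 * (5 * θ) ^ m := by rw [mul_pow]; ring
  have h3 := animals_tail v (w := 5 * θ) (by positivity) (by linarith) n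
  have h4 : (400 * (5 * θ)) ^ n ≤ (1 / 2 : ℝ) ^ n := by
    refine pow_le_pow_left₀ (by positivity) (by linarith) n
  calc ∑ S ∈ SV n v, u S.card ≤ ∑ S ∈ SV n v, C1 * 130000 * (5 * θ) ^ S.card :=
        sum_le_sum fun S _ => h1 _
    _ = C1 * 130000 * ∑ S ∈ SV n v, (5 * θ) ^ S.card := by rw [mul_sum]
    _ ≤ C1 * 130000 * ((400 * (5 * θ)) ^ n / 120) := by
        refine mul_le_mul_of_nonneg_left ?_ (by positivity)
        unfold SV
        exact h3
    _ ≤ C1 * 130000 * ((1 / 2) ^ n / 120) := by gcongr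
    _ ≤ C1 * 1084 * (1 / 2) ^ n := by
        have : (0 : ℝ) ≤ C1 * (1 / 2) ^ n := by positivity
        nlinarith

/-- **counting lemma, main sum** -/
theorem count_main (a : Tor N → ℝ≥0∞) (n R : ℕ) {C1 θ : ℝ} (hC : 0 ≤ C1) (hθ : 0 ≤ θ)
    (hθ1 : θ ≤ 1 / 4096) :
    ∑ x, ∑ S ∈ SS n R x, ENNReal.ofReal (C1 * ((S.card : ℝ) + 1) ^ 10 * θ ^ S.card) *
        ∑ z ∈ insert x S, a z ≤
      ENNReal.ofReal (C1 * 2168 * (2 * R + 1) ^ 2 * (1 / 2) ^ n) * ∑ z, a z := by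
  have h := count_gen a (fun m => ENNReal.ofReal (C1 * ((m : ℝ) + 1) ^ 10 * θ ^ m)) n R
    (G := ENNReal.ofReal (C1 * 1084 * (1 / 2) ^ n)) (G' := ENNReal.ofReal (C1 * 1084 * (1 / 2) ^ n))
    ?_ ?_
  · refine h.trans (le_of_eq ?_)
    rw [← ENNReal.ofReal_add (by positivity) (by positivity), ← ENNReal.ofReal_natCast,
      ← ENNReal.ofReal_mul (by positivity)]
    congr 2
    push_cast
    ring
  · intro v
    refine sum_SV_le n v hC hθ hθ1 (u := fun m => C1 * ((m : ℝ) + 1) ^ 10 * θ ^ m)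
      (fun m => by positivity) fun m => ?_
    have h1 : ((m : ℝ) + 1) ^ 10 ≤ ((m : ℝ) + 1) ^ 11 :=
      pow_le_pow_right₀ (by linarith [Nat.cast_nonneg (α := ℝ) m]) (by norm_num)
    gcongr
  · intro v
    have e : ∀ S ∈ SV n v, (S.card : ℝ≥0∞) *
        ENNReal.ofReal (C1 * ((S.card : ℝ) + 1) ^ 10 * θ ^ S.card) =
        ENNReal.ofReal ((S.card : ℝ) * (C1 * ((S.card : ℝ) + 1) ^ 10 * θ ^ S.card)) := by
      intro S _
      rw [ENNReal.ofReal_mul (Nat.cast_nonneg _), ENNReal.ofReal_natCast]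
    rw [sum_congr rfl e]
    refine sum_SV_le n v hC hθ hθ1
      (u := fun m => (m : ℝ) * (C1 * ((m : ℝ) + 1) ^ 10 * θ ^ m))
      (fun m => by positivity) fun m => ?_
    have h1 : (m : ℝ) * ((m : ℝ) + 1) ^ 10 ≤ ((m : ℝ) + 1) ^ 11 := by
      have : (m : ℝ) * ((m : ℝ) + 1) ^ 10 ≤ ((m : ℝ) + 1) * ((m : ℝ) + 1) ^ 10 := by
        gcongr; linarith
      calc _ ≤ _ := this
        _ = _ := by ring
    calc (m : ℝ) * (C1 * ((m : ℝ) + 1) ^ 10 * θ ^ m) = C1 * ((m : ℝ) * ((m : ℝ) + 1) ^ 10) * θ ^ m := by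
          ring
      _ ≤ C1 * ((m : ℝ) + 1) ^ 11 * θ ^ m := by gcongr

/-- **counting lemma, additive sum** -/
theorem count_add (n R : ℕ) {C1 θ : ℝ} (hC : 0 ≤ C1) (hθ : 0 ≤ θ) (hθ1 : θ ≤ 1 / 4096) :
    ∑ x : Tor N, ∑ S ∈ SS n R x, ENNReal.ofReal (C1 * ((S.card : ℝ) + 1) ^ 10 * θ ^ S.card) ≤
      ENNReal.ofReal (C1 * 2168 * (2 * R + 1) ^ 2 * (1 / 2) ^ n) * (N : ℝ≥0∞) ^ 2 := by
  have h0 : ∀ x : Tor N, ∑ S ∈ SS n R x,
      ENNReal.ofReal (C1 * ((S.card : ℝ) + 1) ^ 10 * θ ^ S.card) ≤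
      ENNReal.ofReal (C1 * 2168 * (2 * R + 1) ^ 2 * (1 / 2) ^ n) := by
    intro x
    refine (sum_SS_le (fun m => ENNReal.ofReal (C1 * ((m : ℝ) + 1) ^ 10 * θ ^ m)) n R
      (G := ENNReal.ofReal (C1 * 1084 * (1 / 2) ^ n)) ?_ x).trans ?_
    · intro v
      refine sum_SV_le n v hC hθ hθ1 (u := fun m => C1 * ((m : ℝ) + 1) ^ 10 * θ ^ m)
        (fun m => by positivity) fun m => ?_
      have h1 : ((m : ℝ) + 1) ^ 10 ≤ ((m : ℝ) + 1) ^ 11 :=
        pow_le_pow_right₀ (by linarith [Nat.cast_nonneg (α := ℝ) m]) (by norm_num)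
      gcongr
    · rw [← ENNReal.ofReal_natCast, ← ENNReal.ofReal_mul (by positivity)]
      refine ENNReal.ofReal_le_ofReal ?_
      push_cast
      have : (0 : ℝ) ≤ C1 * (2 * R + 1) ^ 2 * (1 / 2) ^ n := by positivity
      nlinarith
  calc _ ≤ ∑ x : Tor N, ENNReal.ofReal (C1 * 2168 * (2 * R + 1) ^ 2 * (1 / 2) ^ n) :=
        sum_le_sum fun x _ => h0 x
    _ = _ := by
        rw [sum_const, nsmul_eq_mul, card_univ, Fintype.card_prod, ZMod.card, mul_comm]
        push_cast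
        ring

end P365T1.H770
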