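import Vale.Agent.P365.H509.Count770

/-!
# P365-T1 (B7): the counting lemma in the literal form of `H509`
-/

set_option linter.all false

namespace P365T1.H770

open P365L P365T1 Finset ENNReal

variable {N : ℕ} [NeZero N]

theorem SS_eq' (n R : ℕ) (x : Tor N) [DecidablePred fun S : Finset (Tor N) =>
    n ≤ S.card ∧ Conn5 S ∧ ∃ v ∈ S, nrm (v - x) ≤ R] :
    SS n R x = univ.filter fun S : Finset (Tor N) =>
      n ≤ S.card ∧ Conn5 S ∧ ∃ v ∈ S, nrm (v - x) ≤ R := by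
  ext S; rw [mem_SS]; simp only [mem_filter, mem_univ, true_and]; tauto

theorem w6_le (S : Finset (Tor N)) :
    ENNReal.ofReal (((S.card : ℝ) + 1) ^ 6 * (1 / 4096) ^ S.card) ≤
      ENNReal.ofReal (1 * ((S.card : ℝ) + 1) ^ 10 * (1 / 4096) ^ S.card) := by
  refine ENNReal.ofReal_le_ofReal ?_
  have h1 : ((S.card : ℝ) + 1) ^ 6 ≤ ((S.card : ℝ) + 1) ^ 10 :=
    pow_le_pow_right₀ (by linarith [Nat.cast_nonneg (α := ℝ) S.card]) (by norm_num)
  rw [one_mul]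
  gcongr

/-- (c1) of `H509` -/
theorem count_c1 (a : Tor N → ℝ≥0∞) (n R : ℕ)
    [∀ x : Tor N, DecidablePred fun S : Finset (Tor N) =>
      n ≤ S.card ∧ Conn5 S ∧ ∃ v ∈ S, nrm (v - x) ≤ R] :
    ∑ x : Tor N, ∑ S ∈ univ.filter (fun S : Finset (Tor N) =>
        n ≤ S.card ∧ Conn5 S ∧ ∃ v ∈ S, nrm (v - x) ≤ R),
        ENNReal.ofReal (((S.card : ℝ) + 1) ^ 6 * (1 / 4096) ^ S.card) * ∑ z ∈ insert x S, a z ≤
      ENNReal.ofReal (2168 * (2 * R + 1) ^ 2 * (1 / 2) ^ n) * ∑ z, a z := by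
  have h := count_main a n R (C1 := 1) (θ := 1 / 4096) (by norm_num) (by norm_num) le_rfl
  rw [one_mul] at h
  refine le_trans ?_ h
  refine sum_le_sum fun x _ => ?_
  rw [← SS_eq']
  exact sum_le_sum fun S _ => mul_le_mul_left (w6_le S) _

/-- (c2) of `H509` -/
theorem count_c2 (n R : ℕ)
    [∀ x : Tor N, DecidablePred fun S : Finset (Tor N) =>
      n ≤ S.card ∧ Conn5 S ∧ ∃ v ∈ S, nrm (v - x) ≤ R] :
    ∑ x : Tor N, ∑ S ∈ univ.filter (fun S : Finset (Tor N) =>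
        n ≤ S.card ∧ Conn5 S ∧ ∃ v ∈ S, nrm (v - x) ≤ R),
        ENNReal.ofReal (((S.card : ℝ) + 1) ^ 6 * (1 / 4096) ^ S.card) ≤
      ENNReal.ofReal (2168 * (2 * R + 1) ^ 2 * (1 / 2) ^ n * N ^ 2) := by
  have h := count_add (N := N) n R (C1 := 1) (θ := 1 / 4096) (by norm_num) (by norm_num) le_rfl
  rw [one_mul] at h
  have e : ENNReal.ofReal (2168 * (2 * R + 1) ^ 2 * (1 / 2) ^ n * N ^ 2) =
      ENNReal.ofReal (2168 * (2 * R + 1) ^ 2 * (1 / 2) ^ n) * (N : ℝ≥0∞) ^ 2 := by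
    rw [ENNReal.ofReal_mul (by positivity), ENNReal.ofReal_pow (Nat.cast_nonneg _),
      ENNReal.ofReal_natCast]
  rw [e]
  refine le_trans ?_ h
  refine sum_le_sum fun x _ => ?_
  rw [← SS_eq']
  exact sum_le_sum fun S _ => w6_le S

end P365T1.H770
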