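import Vale.Agent.P365.H509.HoleB
import Vale.Agent.P365.H509.Count770b
import Vale.Agent.P365.T1c.HB376

/-!
# P365-T1 (B7): the LONG half of the bulk hub (HB)

`LONG good n R l x` : a range-5 cluster of non-good sites of `l` with at least `n` sites comes
within `R` of `x`.  The cost of the sites `x` with `LONG` is at most
`ηL / s * (energy + N²)`, `ηL = C (R + 1)² (2 R + 1)² 2^{-n}`.
-/

set_option linter.all false

namespace Vale.Agent.P365.J376

open P365L P365O P365T1 P365T1.Switch P365T1.OneVar P365L.TL Matrix Complex MeasureTheory Finset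
open P365T1.HBasm P365T1.H770
open scoped ComplexConjugate ENNReal

variable {D : V3} {N : ℕ} [NeZero N] {ρ : Measure ℝ}

/-- the constant of LONG -/
noncomputable def etaL (L D0 Pm : ℝ) (n R : ℕ) : ℝ :=
  C3 L D0 Pm * (R + 1) ^ 2 * 2168 * (2 * R + 1) ^ 2 * (1 / 2) ^ n

theorem sum_aa_eq_FR (E : ℝ) (i : ℕ) (s : ℝ) :
    ∑ z : Tor N, D.aa E i s z = FR D N E i s := by
  unfold V3.aa FR
  rw [sum_comm]
  refine sum_congr rfl fun l' _ => ?_
  rw [mul_sum]
  rfl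

open Classical in
/-- sums over the sites with LONG are bounded by sums over clusters -/
theorem V3.long_le_clusters (hpat : ∀ j ≤ D.I, ∀ a, D.pat j a ≠ D.good) {E : ℝ} {i : ℕ} {s : ℝ}
    {n R : ℕ} (hn : 2 ≤ n) (l : Tor N → D.Λ) (x : Tor N) :
    D.Pl l * (if D.mov (l x) ∧ ¬ D.cen i l x ∧ LONG D.good n R l x then
          ENNReal.ofReal (D.Ws (i + 1) l x) * FY D N E i s l x else 0) ≤
      ∑ S ∈ univ.filter (fun S : Finset (Tor N) =>
        n ≤ S.card ∧ Conn5 S ∧ ∃ v ∈ S, nrm (v - x) ≤ R),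
        if l ∈ D.TS S then D.Pl l *
          (ENNReal.ofReal (D.wb i l x) * ∑ k : Fin 4, D.YY E i s k l x) else 0 := by
  by_cases hc : D.mov (l x) ∧ ¬ D.cen i l x ∧ LONG D.good n R l x
  · rw [if_pos hc]
    obtain ⟨hm, hcn, z0, hz0, hcard⟩ := hc
    have hmem : cl D.good l z0 ∈ univ.filter (fun S : Finset (Tor N) =>
        n ≤ S.card ∧ Conn5 S ∧ ∃ v ∈ S, nrm (v - x) ≤ R) := by
      rw [mem_filter]
      exact ⟨mem_univ _, hcard, cl_conn z0, z0, self_mem_cl z0, hz0⟩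
    have hT : l ∈ D.TS (cl D.good l z0) :=
      V3.mem_TS.2 ⟨cl_nongood_two (hn.trans hcard), cl_closed hpat z0⟩
    refine le_trans (le_of_eq ?_) (single_le_sum (f := fun S : Finset (Tor N) =>
      if l ∈ D.TS S then D.Pl l *
          (ENNReal.ofReal (D.wb i l x) * ∑ k : Fin 4, D.YY E i s k l x) else 0)
      (fun _ _ => zero_le) hmem)
    rw [if_pos hT, V3.wb, if_pos ⟨hm, hcn⟩]
    rfl
  · rw [if_neg hc, mul_zero]
    exact zero_le

open Classical in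
/-- **the LONG half of (HB)** -/
theorem V3.Ok.long_sum (h : D.Ok ρ) (hpat : ∀ j ≤ D.I, ∀ a, D.pat j a ≠ D.good)
    {i : ℕ} (hi : i ≤ D.I) {s : ℝ} (hs : 0 < s) (hs1 : s ≤ 1) {E L D0 Pm : ℝ} (hL0 : 0 ≤ L)
    (hD00 : 0 ≤ D0) {Dd : D.Λ → ℝ} (hDd0 : ∀ k, 0 ≤ Dd k) (hDd : ∀ k, DensLe (Dd k) (D.ν k))
    (hD0 : ∑ k, D.p k * Dd k ≤ D0)
    (hL : ∀ l : Tor N → D.Λ, ∀ k z, ∀ᵐ u ∂D.ν k, |u - E| + D.prof (i + 1) s l z ≤ L)
    (hPm : ∀ (l : Tor N → D.Λ) (z : Tor N), D.prof (i + 1) s l z ≤ Pm)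
    {n R : ℕ} (hn : 2 ≤ n) :
    ∑ l : Tor N → D.Λ, ENNReal.ofReal (∏ x, D.p (l x)) *
        ∑ x, (if D.mov (l x) ∧ ¬ D.cen i l x ∧ LONG D.good n R l x then
          ENNReal.ofReal (D.Ws (i + 1) l x) * FY D N E i s l x else 0) ≤
      ENNReal.ofReal (etaL L D0 Pm n R / s) *
        (FR D N E i s + ENNReal.ofReal ((N : ℝ) ^ 2)) := by
  have hPm0 : 0 ≤ Pm := (h.prof_pos (N := N) (by omega) hs.le (fun _ => D.good) 0).le.trans
    (hPm (fun _ => D.good) 0)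
  have hCK := CKq_nonneg (L := L) hD00
  set C : ℝ := C3 L D0 Pm * (R + 1) ^ 2 / s with hC
  have hC0 : 0 ≤ C := by
    rw [hC, C3]
    positivity
  set G : ℝ := 2168 * (2 * R + 1) ^ 2 * (1 / 2) ^ n with hG
  have hG0 : 0 ≤ G := by positivity
  have hCG : C * G = etaL L D0 Pm n R / s := by
    rw [hC, hG, etaL]
    ring
  calc ∑ l : Tor N → D.Λ, ENNReal.ofReal (∏ x, D.p (l x)) *
        ∑ x, (if D.mov (l x) ∧ ¬ D.cen i l x ∧ LONG D.good n R l x then
          ENNReal.ofReal (D.Ws (i + 1) l x) * FY D N E i s l x else 0)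
      = ∑ x, ∑ l : Tor N → D.Λ, D.Pl l *
        (if D.mov (l x) ∧ ¬ D.cen i l x ∧ LONG D.good n R l x then
          ENNReal.ofReal (D.Ws (i + 1) l x) * FY D N E i s l x else 0) := by
        rw [sum_comm]
        refine sum_congr rfl fun l _ => ?_
        rw [mul_sum]
        rfl
    _ ≤ ∑ x, ∑ l : Tor N → D.Λ, ∑ S ∈ univ.filter (fun S : Finset (Tor N) =>
        n ≤ S.card ∧ Conn5 S ∧ ∃ v ∈ S, nrm (v - x) ≤ R),
        if l ∈ D.TS S then D.Pl l *
          (ENNReal.ofReal (D.wb i l x) * ∑ k : Fin 4, D.YY E i s k l x) else 0 :=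
        sum_le_sum fun x _ => sum_le_sum fun l _ => V3.long_le_clusters hpat hn l x
    _ = ∑ x, ∑ S ∈ univ.filter (fun S : Finset (Tor N) =>
        n ≤ S.card ∧ Conn5 S ∧ ∃ v ∈ S, nrm (v - x) ≤ R),
        ∑ l ∈ D.TS S, D.Pl l *
          (ENNReal.ofReal (D.wb i l x) * ∑ k : Fin 4, D.YY E i s k l x) := by
        refine sum_congr rfl fun x _ => ?_
        rw [sum_comm]
        refine sum_congr rfl fun S _ => ?_
        rw [← sum_filter]
        congr 1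
        ext l
        simp
    _ ≤ ∑ x, ∑ S ∈ univ.filter (fun S : Finset (Tor N) =>
        n ≤ S.card ∧ Conn5 S ∧ ∃ v ∈ S, nrm (v - x) ≤ R),
        ENNReal.ofReal C * (ENNReal.ofReal (wn S.card) *
        (∑ z ∈ insert x S, D.aa E i s z + 1)) := by
        refine sum_le_sum fun x _ => sum_le_sum fun S hS => ?_
        obtain ⟨_, _, hS1, v, hv, hvx⟩ := mem_filter.1 hS
        exact h.long_pair hpat hi hs hs1 hL0 hD00 hDd0 hDd hD0 hL hPm hS1 hv hvx
    _ = ENNReal.ofReal C * (∑ x, ∑ S ∈ univ.filter (fun S : Finset (Tor N) =>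
        n ≤ S.card ∧ Conn5 S ∧ ∃ v ∈ S, nrm (v - x) ≤ R),
        ENNReal.ofReal (((S.card : ℝ) + 1) ^ 6 * (1 / 4096) ^ S.card) *
          ∑ z ∈ insert x S, D.aa E i s z +
        ∑ x : Tor N, ∑ S ∈ univ.filter (fun S : Finset (Tor N) =>
        n ≤ S.card ∧ Conn5 S ∧ ∃ v ∈ S, nrm (v - x) ≤ R),
        ENNReal.ofReal (((S.card : ℝ) + 1) ^ 6 * (1 / 4096) ^ S.card)) := by
        rw [← sum_add_distrib, mul_sum]
        refine sum_congr rfl fun x _ => ?_
        rw [← sum_add_distrib, mul_sum]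
        refine sum_congr rfl fun S _ => ?_
        rw [wn, mul_add (ENNReal.ofReal (((S.card : ℝ) + 1) ^ 6 * (1 / 4096) ^ S.card)), mul_one]
    _ ≤ ENNReal.ofReal C * (ENNReal.ofReal G * ∑ z, D.aa E i s z +
        ENNReal.ofReal (G * N ^ 2)) :=
        mul_le_mul' le_rfl (add_le_add (count_c1 _ n R) (count_c2 n R))
    _ = ENNReal.ofReal (C * G) * (FR D N E i s + ENNReal.ofReal ((N : ℝ) ^ 2)) := by
        rw [sum_aa_eq_FR, ENNReal.ofReal_mul hG0, ENNReal.ofReal_mul hC0]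
        ring
    _ = _ := by rw [hCG]

end Vale.Agent.P365.J376
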