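import Vale.Agent.P365.H509.Loc548
import Vale.Agent.P365.H509.Animals770
import Vale.Agent.P365.T1.FarT16
import Vale.Agent.P365.T1.SwAll789
import Vale.Agent.P365.L1.Near2

/-!
# P365-T1 (B7, LONG): one cluster `S`, one site `x`

From the one-shot switch (far map, profile weights) to the energies `Yf`, `Mf` of the angle
functions: base points.
-/

set_option linter.all false

namespace Vale.Agent.P365.J376

open P365L P365O P365T1 P365T1.Switch P365T1.OneVar P365L.TL Matrix Complex MeasureTheory Finset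
open scoped ComplexConjugate ENNReal

variable {D : V3} {N : ℕ} [NeZero N] {ρ : Measure ℝ}

/-- probability of a label configuration -/
noncomputable def V3.Pl (D : V3) (l : Tor N → D.Λ) : ℝ≥0∞ := ENNReal.ofReal (∏ z, D.p (l z))

/-- off-resonant energy of `x` -/
noncomputable def V3.YY (D : V3) (E : ℝ) (i : ℕ) (s : ℝ) (k : Fin 4) (l : Tor N → D.Λ)
    (x : Tor N) : ℝ≥0∞ :=
  ∫⁻ v, ENNReal.ofReal (Yf (AT N) (WV E (D.prof (i + 1) s l) v) (phi N k) x)
    ∂(Measure.pi fun x => D.ν (l x))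

/-- energy density of `x` -/
noncomputable def V3.MM (D : V3) (E : ℝ) (i : ℕ) (s : ℝ) (k : Fin 4) (l : Tor N → D.Λ)
    (x : Tor N) : ℝ≥0∞ :=
  ∫⁻ v, ENNReal.ofReal (Mf (AT N) (WV E (D.prof (i + 1) s l) v) (phi N k) x)
    ∂(Measure.pi fun x => D.ν (l x))

open Classical in
/-- bulk weight -/
noncomputable def V3.wb (D : V3) (i : ℕ) (l : Tor N → D.Λ) (x : Tor N) : ℝ :=
  if D.mov (l x) ∧ ¬ D.cen i l x then D.Ws (i + 1) l x else 0

theorem V3.Ok.wb_nonneg (h : D.Ok ρ) {i : ℕ} (hi : i ≤ D.I) (l : Tor N → D.Λ) (x : Tor N) :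
    0 ≤ D.wb i l x := by
  unfold V3.wb
  split_ifs
  · exact h.Ws_nonneg (by omega) l x
  · exact le_rfl

theorem V3.Ok.wb_le (h : D.Ok ρ) {i : ℕ} (hi : i ≤ D.I) (l : Tor N → D.Λ) (x : Tor N) :
    D.wb i l x ≤ 2 * (D.e0 i * Real.exp (-(D.a i))) := by
  have h1 := h.e0_pos i hi
  unfold V3.wb
  split_ifs with h2
  · exact (h.Ws_bulk hi h2.1 h2.2).2
  · positivity

theorem V3.Ok.wb_le_two (h : D.Ok ρ) {i : ℕ} (hi : i ≤ D.I) (l : Tor N → D.Λ) (x : Tor N) :
    D.wb i l x ≤ 2 := by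
  refine (h.wb_le hi l x).trans ?_
  have h1 := h.e0_le i hi
  have h2 : Real.exp (-(D.a i)) ≤ 1 := Real.exp_le_one_iff.2 (by linarith [h.a_nonneg i hi])
  have h3 : D.e0 i * Real.exp (-(D.a i)) ≤ 1 * 1 :=
    mul_le_mul h1 h2 (Real.exp_pos _).le zero_le_one
  linarith

/-- far map of the cluster `S`, base point `x`, world `l'` -/
noncomputable def V3.Tf (D : V3) (i : ℕ) (s : ℝ) (k : Fin 4) (S : Finset (Tor N)) (x : Tor N)
    (l' : Tor N → D.Λ) : (Tor N → ℂ) →ₗ[ℂ] EuclideanSpace ℂ (Tor N) :=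
  Tk (D.prof (i + 1) s l') (insert x S) (phi N k) (phi N k x)

/-- weighted energy density of one site, far map -/
theorem V3.Ok.MV_Tf_le (h : D.Ok ρ) {i : ℕ} (hi : i ≤ D.I) {s : ℝ} (hs : 0 < s) (E : ℝ)
    (k : Fin 4) {S : Finset (Tor N)} {x z : Tor N} (l' : Tor N → D.Λ) {m : ℝ}
    (hm : |phi N k x - phi N k z| ≤ m) :
    ENNReal.ofReal (D.prof (i + 1) s l' z) *
      ∫⁻ v, MV (AT N) (WV E (D.prof (i + 1) s l') v) (D.Tf i s k S x l') z
        ∂(Measure.pi fun x => D.ν (l' x)) ≤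
      2 * (ENNReal.ofReal (D.prof (i + 1) s l' z) * D.MM E i s k l' z) +
        ENNReal.ofReal (2 * m ^ 2) := by
  haveI := h.prob
  have he : ∀ y, 0 < D.prof (i + 1) s l' y := fun y => h.prof_pos (by omega) hs.le l' y
  have h0 := (he z).le
  have h1 : ∀ v : Tor N → ℝ, ENNReal.ofReal (D.prof (i + 1) s l' z) *
      MV (AT N) (WV E (D.prof (i + 1) s l') v) (D.Tf i s k S x l') z ≤
      2 * (ENNReal.ofReal (D.prof (i + 1) s l' z) *
        ENNReal.ofReal (Mf (AT N) (WV E (D.prof (i + 1) s l') v) (phi N k) z)) +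
        ENNReal.ofReal (2 * m ^ 2) := by
    intro v
    have hW : ∀ y, (WV E (D.prof (i + 1) s l') v y).im < 0 := WV_im_neg he v
    have h2 := GV_Tk_le (E := E) (B := insert x S) (e0 := D.prof (i + 1) s l') (AT_symm N) he
      (fun _ _ => rfl) (f := phi N k) hm v
    have h3 := e_mul_mm_le (AT_symm N) hW z
    rw [P365T1.WV_im, neg_neg] at h3
    have h4 : 0 ≤ Mf (AT N) (WV E (D.prof (i + 1) s l') v) (phi N k) z := Mf_nonneg hW _ z
    have e2 : ∀ t : ℝ, 2 * ENNReal.ofReal t = ENNReal.ofReal (2 * t) := fun t => by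
      rw [ENNReal.ofReal_mul (by norm_num), ENNReal.ofReal_ofNat]
    rw [MV, V3.Tf, ← ENNReal.ofReal_mul h0, ← ENNReal.ofReal_mul h0, e2,
      ← ENNReal.ofReal_add (by positivity) (by positivity)]
    refine ENNReal.ofReal_le_ofReal ?_
    have h5 := mul_le_mul_of_nonneg_left h2 h0
    have h6 : 2 * m ^ 2 * (D.prof (i + 1) s l' z *
        mm (AT N) (WV E (D.prof (i + 1) s l') v) z) ≤ 2 * m ^ 2 * 1 :=
      mul_le_mul_of_nonneg_left h3 (by positivity)
    nlinarith
  rw [← lintegral_const_mul' _ _ ENNReal.ofReal_ne_top]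
  refine (lintegral_mono h1).trans (le_of_eq ?_)
  rw [lintegral_add_right _ measurable_const, lintegral_const, measure_univ, mul_one,
    lintegral_const_mul' _ _ (by simp), lintegral_const_mul' _ _ ENNReal.ofReal_ne_top]
  rfl

/-- **one cluster, one site**: from the far map to the energies -/
theorem V3.Ok.long_one (h : D.Ok ρ) {i : ℕ} (hi : i ≤ D.I) {s : ℝ} (hs : 0 < s) (E : ℝ)
    (k : Fin 4) {S : Finset (Tor N)} {x : Tor N} {m Pm K : ℝ} (hK : 0 ≤ K)
    (hm : ∀ z ∈ insert x S, |phi N k z - phi N k x| ≤ m)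
    (hPm : ∀ (l : Tor N → D.Λ) (z : Tor N), D.prof (i + 1) s l z ≤ Pm)
    {Tl : Finset (Tor N → D.Λ)}
    (hprof : ∀ l ∈ Tl, ∀ z ∉ insert x S,
      D.prof (i + 1) s l z = D.prof (i + 1) s (swf S D.good l) z)
    (hQ : ∑ l ∈ Tl, D.Pl l * (ENNReal.ofReal (D.wb i l x) *
        ∫⁻ v, ENNReal.ofReal (Yv (AT N) (WV E (D.prof (i + 1) s l) v)
          (D.Tf i s k S x (swf S D.good l)) x) ∂(Measure.pi fun x => D.ν (l x))) ≤
      ENNReal.ofReal K * ∑ l' ∈ Tl.image (swf S D.good), D.Pl l' *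
        ∑ z ∈ insert x S, ENNReal.ofReal (D.prof (i + 1) s l' z) *
          ∫⁻ v, MV (AT N) (WV E (D.prof (i + 1) s l') v) (D.Tf i s k S x l') z
            ∂(Measure.pi fun x => D.ν (l' x))) :
    ∑ l ∈ Tl, D.Pl l * (ENNReal.ofReal (D.wb i l x) * D.YY E i s k l x) ≤
      ENNReal.ofReal (4 * K) * ∑ z ∈ insert x S, ∑ l' : Tor N → D.Λ,
        D.Pl l' * (ENNReal.ofReal (D.prof (i + 1) s l' z) * D.MM E i s k l' z) +
      (ENNReal.ofReal (4 * K * (S.card + 1) * m ^ 2) * ∑ l' : Tor N → D.Λ, D.Pl l' +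
      ENNReal.ofReal (4 * (1 + Pm) * m ^ 2) * ∑ l ∈ Tl, D.Pl l) := by
  haveI := h.prob
  have hm0 : 0 ≤ m := (abs_nonneg _).trans (hm x (mem_insert_self _ _))
  have hPm0 : 0 ≤ Pm := by
    have h1 := hPm (fun _ => D.good) x
    exact (h.prof_pos (by omega) hs.le (fun _ => D.good) x).le.trans h1
  -- front
  have hfront : ∀ l ∈ Tl, D.YY E i s k l x ≤
      2 * ∫⁻ v, ENNReal.ofReal (Yv (AT N) (WV E (D.prof (i + 1) s l) v)
          (D.Tf i s k S x (swf S D.good l)) x) ∂(Measure.pi fun x => D.ν (l x)) +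
        ENNReal.ofReal (2 * (1 + Pm) * m ^ 2) := by
    intro l hl
    have he : ∀ y, 0 < D.prof (i + 1) s l y := fun y => h.prof_pos (by omega) hs.le l y
    have h1 := lint_Yf_le (E := E) (B := insert x S) (e0 := D.prof (i + 1) s (swf S D.good l))
      (AT_symm N) he (fun z hz => (hprof l hl z hz).symm) (fun x => D.ν (l x)) (f := phi N k)
      (fo := phi N k x) (m := m) (x := x) (by simpa using hm0) hm
    refine h1.trans (add_le_add le_rfl (ENNReal.ofReal_le_ofReal ?_))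
    have h2 := hPm l x
    have h3 : 0 ≤ m ^ 2 := sq_nonneg m
    nlinarith
  have h1 : ∑ l ∈ Tl, D.Pl l * (ENNReal.ofReal (D.wb i l x) * D.YY E i s k l x) ≤
      2 * ∑ l ∈ Tl, D.Pl l * (ENNReal.ofReal (D.wb i l x) *
        ∫⁻ v, ENNReal.ofReal (Yv (AT N) (WV E (D.prof (i + 1) s l) v)
          (D.Tf i s k S x (swf S D.good l)) x) ∂(Measure.pi fun x => D.ν (l x))) +
      ENNReal.ofReal (4 * (1 + Pm) * m ^ 2) * ∑ l ∈ Tl, D.Pl l := by
    rw [mul_sum, mul_sum, ← sum_add_distrib]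
    refine sum_le_sum fun l hl => ?_
    have h2 := h.wb_le_two hi l x
    have h3 : ENNReal.ofReal (D.wb i l x) * ENNReal.ofReal (2 * (1 + Pm) * m ^ 2) ≤
        ENNReal.ofReal (4 * (1 + Pm) * m ^ 2) := by
      rw [← ENNReal.ofReal_mul (h.wb_nonneg hi l x)]
      refine ENNReal.ofReal_le_ofReal ?_
      have h4 : 0 ≤ 2 * (1 + Pm) * m ^ 2 := by positivity
      nlinarith
    calc D.Pl l * (ENNReal.ofReal (D.wb i l x) * D.YY E i s k l x)
        ≤ D.Pl l * (ENNReal.ofReal (D.wb i l x) * (2 * ∫⁻ v, ENNReal.ofReal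
          (Yv (AT N) (WV E (D.prof (i + 1) s l) v) (D.Tf i s k S x (swf S D.good l)) x)
          ∂(Measure.pi fun x => D.ν (l x)) + ENNReal.ofReal (2 * (1 + Pm) * m ^ 2))) :=
          mul_le_mul' le_rfl (mul_le_mul' le_rfl (hfront l hl))
      _ = 2 * (D.Pl l * (ENNReal.ofReal (D.wb i l x) * ∫⁻ v, ENNReal.ofReal
          (Yv (AT N) (WV E (D.prof (i + 1) s l) v) (D.Tf i s k S x (swf S D.good l)) x)
          ∂(Measure.pi fun x => D.ν (l x)))) + (ENNReal.ofReal (D.wb i l x) *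
            ENNReal.ofReal (2 * (1 + Pm) * m ^ 2)) * D.Pl l := by ring
      _ ≤ _ := add_le_add le_rfl (mul_le_mul' h3 le_rfl)
  -- back
  have h2 : ∑ l' ∈ Tl.image (swf S D.good), D.Pl l' *
        ∑ z ∈ insert x S, ENNReal.ofReal (D.prof (i + 1) s l' z) *
          ∫⁻ v, MV (AT N) (WV E (D.prof (i + 1) s l') v) (D.Tf i s k S x l') z
            ∂(Measure.pi fun x => D.ν (l' x)) ≤
      2 * ∑ z ∈ insert x S, ∑ l' : Tor N → D.Λ,
        D.Pl l' * (ENNReal.ofReal (D.prof (i + 1) s l' z) * D.MM E i s k l' z) +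
      ENNReal.ofReal (2 * (S.card + 1) * m ^ 2) * ∑ l' : Tor N → D.Λ, D.Pl l' := by
    calc _ ≤ ∑ l' : Tor N → D.Λ, D.Pl l' *
        ∑ z ∈ insert x S, ENNReal.ofReal (D.prof (i + 1) s l' z) *
          ∫⁻ v, MV (AT N) (WV E (D.prof (i + 1) s l') v) (D.Tf i s k S x l') z
            ∂(Measure.pi fun x => D.ν (l' x)) :=
          sum_le_sum_of_subset (subset_univ _)
      _ ≤ ∑ l' : Tor N → D.Λ, D.Pl l' * ∑ z ∈ insert x S,
          (2 * (ENNReal.ofReal (D.prof (i + 1) s l' z) * D.MM E i s k l' z) +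
            ENNReal.ofReal (2 * m ^ 2)) := by
          refine sum_le_sum fun l' _ => mul_le_mul' le_rfl (sum_le_sum fun z hz => ?_)
          refine h.MV_Tf_le hi hs E k l' ?_
          rw [abs_sub_comm]
          exact hm z hz
      _ ≤ ∑ l' : Tor N → D.Λ, (2 * ∑ z ∈ insert x S,
          D.Pl l' * (ENNReal.ofReal (D.prof (i + 1) s l' z) * D.MM E i s k l' z) +
            ENNReal.ofReal (2 * (S.card + 1) * m ^ 2) * D.Pl l') := by
          refine sum_le_sum fun l' _ => ?_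
          rw [sum_add_distrib, mul_add, ← mul_sum, ← mul_sum, sum_const, nsmul_eq_mul]
          have h3 : ((insert x S).card : ℝ≥0∞) * ENNReal.ofReal (2 * m ^ 2) ≤
              ENNReal.ofReal (2 * (S.card + 1) * m ^ 2) := by
            have h4 : ((insert x S).card : ℝ≥0∞) ≤ ENNReal.ofReal ((S.card : ℝ) + 1) := by
              have h5 : (insert x S).card ≤ S.card + 1 := card_insert_le _ _
              have h6 : ENNReal.ofReal ((S.card : ℝ) + 1) = ((S.card + 1 : ℕ) : ℝ≥0∞) := by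
                rw [← ENNReal.ofReal_natCast]
                congr 1
                push_cast
                ring
              rw [h6]
              exact_mod_cast h5
            refine (mul_le_mul' h4 le_rfl).trans (le_of_eq ?_)
            rw [← ENNReal.ofReal_mul (by positivity)]
            congr 1
            ring
          calc _ = 2 * (D.Pl l' * ∑ z ∈ insert x S,
                (ENNReal.ofReal (D.prof (i + 1) s l' z) * D.MM E i s k l' z)) +
                (((insert x S).card : ℝ≥0∞) * ENNReal.ofReal (2 * m ^ 2)) * D.Pl l' := by ring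
            _ ≤ _ := by
              rw [mul_sum (s := insert x S) (a := D.Pl l')]
              exact add_le_add le_rfl (mul_le_mul' h3 le_rfl)
      _ = _ := by
          rw [sum_add_distrib, ← mul_sum, ← mul_sum, sum_comm]
  have h4 : (4 : ℝ≥0∞) = 2 * 2 := by norm_num
  have e1 : ENNReal.ofReal (4 * K) = 2 * ENNReal.ofReal K * 2 := by
    rw [ENNReal.ofReal_mul (by norm_num)]
    simp only [ENNReal.ofReal_ofNat]
    rw [h4]
    ring
  have e2 : ENNReal.ofReal (4 * K * (S.card + 1) * m ^ 2) =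
      2 * ENNReal.ofReal K * ENNReal.ofReal (2 * (S.card + 1) * m ^ 2) := by
    rw [show (2 : ℝ≥0∞) = ENNReal.ofReal 2 by simp, ← ENNReal.ofReal_mul (by norm_num),
      ← ENNReal.ofReal_mul (by positivity)]
    congr 1
    ring
  calc _ ≤ _ := h1
    _ ≤ 2 * (ENNReal.ofReal K * (2 * ∑ z ∈ insert x S, ∑ l' : Tor N → D.Λ,
        D.Pl l' * (ENNReal.ofReal (D.prof (i + 1) s l' z) * D.MM E i s k l' z) +
      ENNReal.ofReal (2 * (S.card + 1) * m ^ 2) * ∑ l' : Tor N → D.Λ, D.Pl l')) +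
      ENNReal.ofReal (4 * (1 + Pm) * m ^ 2) * ∑ l ∈ Tl, D.Pl l :=
        add_le_add (mul_le_mul' le_rfl (hQ.trans (mul_le_mul' le_rfl h2))) le_rfl
    _ = _ := by
        rw [e1, e2]
        ring

end Vale.Agent.P365.J376
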