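import Vale.Agent.P365.H509.Loc548

/-!
# P365-T1, design v3: switching a part of a closed set
-/

set_option linter.all false

namespace Vale.Agent.P365.J376

open P365L P365T1 P365T1.Switch

variable {D : V3} {N : ℕ} [NeZero N] {l : Tor N → D.Λ} {S S' : Finset (Tor N)}

/-- matched blocks off `S`, a subset `S'` of `S` is switched -/
theorem V3.Mat_swf_sub (hpat : ∀ j ≤ D.I, ∀ a, D.pat j a ≠ D.good) (hcl : D.Closed l S)
    (hS' : S' ⊆ S) {j : ℕ} (hj : j ≤ D.I) {z : Tor N} (hz : z ∉ S) :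
    D.Mat j (swf S' D.good l) z ↔ D.Mat j l z := by
  constructor
  · intro h w hw
    have h1 := h w hw
    by_cases hS : w ∈ S'
    · rw [swf_in hS] at h1
      exact absurd h1.symm (hpat j hj _)
    · rwa [swf_out hS] at h1
  · intro h w hw
    have hS : w ∉ S' := fun hS => hz (hcl j hj z h ⟨w, hS' hS, hw⟩)
    rw [swf_out hS]
    exact h w hw

theorem V3.wf_swf_sub (hpat : ∀ j ≤ D.I, ∀ a, D.pat j a ≠ D.good) (hcl : D.Closed l S)
    (hS' : S' ⊆ S) {j : ℕ} (hj : j ≤ D.I) {z : Tor N} (hz : z ∉ S) :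
    D.wf j (swf S' D.good l) z = D.wf j l z := by
  classical
  have h : D.cen j (swf S' D.good l) z ↔ D.cen j l z :=
    and_congr_left fun _ => V3.Mat_swf_sub hpat hcl hS' hj hz
  unfold V3.wf
  by_cases hc : D.cen j l z
  · rw [if_pos hc, if_pos (h.2 hc)]
  · rw [if_neg hc, if_neg (fun h' => hc (h.1 h')), swf_out (fun h' => hz (hS' h'))]

theorem V3.Ws_swf_sub (hpat : ∀ j ≤ D.I, ∀ a, D.pat j a ≠ D.good) (hcl : D.Closed l S)
    (hS' : S' ⊆ S) {i : ℕ} (hi : i ≤ D.I + 1) {z : Tor N} (hz : z ∉ S) :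
    D.Ws i (swf S' D.good l) z = D.Ws i l z := by
  induction i with
  | zero => simp only [V3.Ws]; rw [swf_out (fun h' => hz (hS' h'))]
  | succ i ih =>
    simp only [V3.Ws]
    rw [ih (by omega), V3.wf_swf_sub hpat hcl hS' (by omega) hz]

/-- **the profile off a closed set `S`**, any part `S'` of which is switched -/
theorem prof_swf_sub {D : V3} (hpat : ∀ j ≤ D.I, ∀ a, D.pat j a ≠ D.good) {i : ℕ}
    (hi : i ≤ D.I + 1) {s : ℝ} {l : Tor N → D.Λ} {S S' : Finset (Tor N)} (hcl : D.Closed l S)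
    (hS' : S' ⊆ S) : ∀ z, z ∉ S → D.prof i s l z = D.prof i s (swf S' D.good l) z := by
  intro z hz
  unfold V3.prof V3.us
  rw [V3.Ws_swf_sub hpat hcl hS' hi hz]
  congr 2
  refine Finset.sum_congr rfl fun j hj => ?_
  rw [Finset.mem_Ico] at hj
  rw [V3.wf_swf_sub hpat hcl hS' (by omega) hz]

/-- 509's form: the site `x` keeps its label -/
theorem prof_erase {D : V3} (hpat : ∀ j ≤ D.I, ∀ a, D.pat j a ≠ D.good) {i : ℕ} (hi : i ≤ D.I)
    {s : ℝ} {l : Tor N → D.Λ} {S : Finset (Tor N)} (x : Tor N)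
    (hcl : ∀ j ≤ D.I, ∀ z, D.Mat j l z → (∃ a ∈ S, bi (D.m j) a = bi (D.m j) z) → z ∈ S) :
    ∀ z, z ∉ S → D.prof (i + 1) s l z = D.prof (i + 1) s (swf (S.erase x) D.good l) z :=
  prof_swf_sub hpat (by omega) hcl (Finset.erase_subset x S)

end Vale.Agent.P365.J376
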