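import Vale.Agent.P365.H509.HoleA
import Vale.Agent.P365.H509.Cl908
import Vale.Agent.P365.H509.Loc548b
import Vale.Agent.P365.T1.LongQ789

/-!
# P365-T1 (B7, LONG): one cluster `S`, one site `x`, all labellings

The bound of one pair `(x, S)`, `S` a connected (range 5) set of sites.
-/

set_option linter.all false

namespace Vale.Agent.P365.J376

open P365L P365O P365T1 P365T1.Switch P365T1.OneVar P365L.TL Matrix Complex MeasureTheory Finset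
open scoped ComplexConjugate ENNReal

variable {D : V3} {N : ℕ} [NeZero N] {ρ : Measure ℝ}

/-- the weight of a cluster of `n` sites -/
noncomputable def wn (n : ℕ) : ℝ := ((n : ℝ) + 1) ^ 6 * (1 / 4096) ^ n

theorem wn_nonneg (n : ℕ) : 0 ≤ wn n := by
  unfold wn
  positivity

/-- constant of the one-shot switch -/
noncomputable def CKq (L D0 : ℝ) : ℝ :=
  16 * (1 + (L + 1) ^ 2 * (Real.pi * D0)) * (1 + (L + 1) ^ 2)

theorem CKq_nonneg {L D0 : ℝ} (hD0 : 0 ≤ D0) : 0 ≤ CKq L D0 := by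
  have := Real.pi_pos
  unfold CKq
  positivity

theorem Kq_le {L D0 τ : ℝ} (hD0 : 0 ≤ D0) (hτ0 : 0 ≤ τ) (hτ : τ ≤ 1 / 8192) {n n' : ℕ}
    (h1 : n ≤ n' + 1) (h2 : n' ≤ n) :
    Kq L D0 τ n' ≤ CKq L D0 * 8192 ^ 2 * (((n : ℝ) + 1) ^ 3 * (1 / 4096) ^ n) := by
  have hC := CKq_nonneg (L := L) hD0
  have e1 : Kq L D0 τ n' = CKq L D0 * (((n' : ℝ) + 1) ^ 3 * (2 ^ n' * τ ^ (n' - 1))) := by
    unfold Kq CKq
    ring
  rw [e1, mul_assoc]
  refine mul_le_mul_of_nonneg_left ?_ hC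
  have h3 : ((n' : ℝ) + 1) ^ 3 ≤ ((n : ℝ) + 1) ^ 3 := by
    have : (n' : ℝ) ≤ n := by exact_mod_cast h2
    gcongr
  have h4 : (2 : ℝ) ^ n' ≤ 2 ^ n := pow_le_pow_right₀ (by norm_num) h2
  have h5 : τ ^ (n' - 1) ≤ τ ^ (n - 2) :=
    pow_le_pow_of_le_one hτ0 (by linarith) (by omega)
  have h6 : τ ^ (n - 2) ≤ (1 / 8192 : ℝ) ^ (n - 2) := pow_le_pow_left₀ hτ0 hτ _
  have h7 : (1 / 8192 : ℝ) ^ (n - 2) ≤ 8192 ^ 2 * (1 / 8192) ^ n := by
    rcases Nat.lt_or_ge n 2 with h | h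
    · interval_cases n <;> norm_num
    · obtain ⟨j, rfl⟩ := Nat.exists_eq_add_of_le h
      rw [show 2 + j - 2 = j by omega, pow_add]
      norm_num
      ring_nf
      exact le_rfl
  have h8 : (2 : ℝ) ^ n * (1 / 8192) ^ n = (1 / 4096) ^ n := by
    rw [← mul_pow]
    norm_num
  calc ((n' : ℝ) + 1) ^ 3 * (2 ^ n' * τ ^ (n' - 1))
      ≤ ((n : ℝ) + 1) ^ 3 * (2 ^ n * (8192 ^ 2 * (1 / 8192) ^ n)) := by
        have h9 := h5.trans (h6.trans h7)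
        gcongr
    _ = 8192 ^ 2 * (((n : ℝ) + 1) ^ 3 * (2 ^ n * (1 / 8192) ^ n)) := by ring
    _ = _ := by rw [h8]

theorem V3.Ok.sum_Pl (h : D.Ok ρ) : ∑ l : Tor N → D.Λ, D.Pl l = 1 := by
  have h1 : ∀ l : Tor N → D.Λ, D.Pl l = ∏ z, ENNReal.ofReal (D.p (l z)) := fun l => by
    rw [V3.Pl, ENNReal.ofReal_prod_of_nonneg fun _ _ => h.p_nonneg _]
  simp only [h1]
  have h2 := (Finset.prod_univ_sum (fun _ : Tor N => (univ : Finset D.Λ))
    (fun _ b => ENNReal.ofReal (D.p b))).symm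
  rw [Fintype.piFinset_univ] at h2
  rw [h2]
  have h3 : ∑ b, ENNReal.ofReal (D.p b) = 1 := by
    rw [← ENNReal.ofReal_sum_of_nonneg fun b _ => h.p_nonneg b, h.p_sum, ENNReal.ofReal_one]
  simp [h3]

/-- the probability that all sites of `S` are non-good -/
theorem V3.Ok.sum_Pl_le (h : D.Ok ρ) {S : Finset (Tor N)} {Tl : Finset (Tor N → D.Λ)}
    (hT : ∀ l ∈ Tl, ∀ z ∈ S, l z ≠ D.good) :
    ∑ l ∈ Tl, D.Pl l ≤ ENNReal.ofReal ((1 / 8192 : ℝ) ^ S.card) := by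
  classical
  set q : Tor N → D.Λ → ℝ≥0∞ := fun z b =>
    if z ∈ S ∧ b = D.good then 0 else ENNReal.ofReal (D.p b) with hq
  have h1 : ∀ l ∈ Tl, D.Pl l = ∏ z, q z (l z) := fun l hl => by
    rw [V3.Pl, ENNReal.ofReal_prod_of_nonneg fun _ _ => h.p_nonneg _]
    refine prod_congr rfl fun z _ => ?_
    rw [hq]
    simp only
    rw [if_neg]
    rintro ⟨hz, hb⟩
    exact hT l hl z hz hb
  have h2 := (Finset.prod_univ_sum (fun _ : Tor N => (univ : Finset D.Λ))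
    (fun z b => q z b)).symm
  rw [Fintype.piFinset_univ] at h2
  have h3 : ∑ b, ENNReal.ofReal (D.p b) = 1 := by
    rw [← ENNReal.ofReal_sum_of_nonneg fun b _ => h.p_nonneg b, h.p_sum, ENNReal.ofReal_one]
  have h4 : ∀ z, z ∉ S → ∑ b, q z b = 1 := by
    intro z hz
    rw [← h3]
    refine sum_congr rfl fun b _ => ?_
    simp [hq, hz]
  have h5 : ∀ z, z ∈ S → ∑ b, q z b ≤ ENNReal.ofReal (1 / 8192) := by
    intro z hz
    have e1 : ∑ b, q z b = ∑ b ∈ univ.erase D.good, ENNReal.ofReal (D.p b) := by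
      rw [← Finset.add_sum_erase univ (q z) (mem_univ D.good)]
      have : q z D.good = 0 := by simp [hq, hz]
      rw [this, zero_add]
      refine sum_congr rfl fun b hb => ?_
      have hb' := (mem_erase.1 hb).1
      simp [hq, hb']
    rw [e1, ← ENNReal.ofReal_sum_of_nonneg fun b _ => h.p_nonneg b]
    refine ENNReal.ofReal_le_ofReal ?_
    have e2 := Finset.add_sum_erase univ D.p (mem_univ D.good)
    rw [h.p_sum] at e2
    linarith [h.p_good]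
  calc ∑ l ∈ Tl, D.Pl l = ∑ l ∈ Tl, ∏ z, q z (l z) := sum_congr rfl h1
    _ ≤ ∑ l : Tor N → D.Λ, ∏ z, q z (l z) := sum_le_sum_of_subset (subset_univ _)
    _ = ∏ z, ∑ b, q z b := h2
    _ = (∏ z ∈ S, ∑ b, q z b) * ∏ z ∈ Sᶜ, ∑ b, q z b := (prod_mul_prod_compl S _).symm
    _ = ∏ z ∈ S, ∑ b, q z b := by
        rw [prod_congr rfl fun z hz => h4 z (mem_compl.1 hz), prod_const_one, mul_one]
    _ ≤ ∏ _z ∈ S, ENNReal.ofReal (1 / 8192) := prod_le_prod' h5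
    _ = _ := by rw [prod_const, ENNReal.ofReal_pow (by norm_num)]

/-- total weighted energy density of the site `z` -/
noncomputable def V3.aa (D : V3) (E : ℝ) (i : ℕ) (s : ℝ) (z : Tor N) : ℝ≥0∞ :=
  ∑ l' : Tor N → D.Λ, D.Pl l' *
    (ENNReal.ofReal (D.prof (i + 1) s l' z) * ∑ k : Fin 4, D.MM E i s k l' z)

/-- the constant of LONG -/
noncomputable def C3 (L D0 Pm : ℝ) : ℝ := 400 * (CKq L D0 * 8192 ^ 2 + 1 + Pm)

open Classical in
/-- the labellings for which `S` consists of non-good sites and cuts no matched block -/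
noncomputable def V3.TS (D : V3) (S : Finset (Tor N)) : Finset (Tor N → D.Λ) :=
  univ.filter fun l => (∀ z ∈ S, l z ≠ D.good) ∧ D.Closed l S

theorem V3.mem_TS {S : Finset (Tor N)} {l : Tor N → D.Λ} :
    l ∈ D.TS S ↔ (∀ z ∈ S, l z ≠ D.good) ∧ D.Closed l S := by
  classical
  unfold V3.TS
  rw [mem_filter]
  exact ⟨fun h => h.2, fun h => ⟨mem_univ _, h⟩⟩

theorem num1 {K X Pm s : ℝ} {n R : ℕ} (hs : 0 < s) (hX0 : 0 ≤ X) (hPm0 : 0 ≤ Pm)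
    (hKle : K ≤ X * (((n : ℝ) + 1) ^ 3 * (1 / 4096) ^ n) / s) :
    4 * K ≤ 400 * (X + 1 + Pm) * (R + 1) ^ 2 / s * wn n := by
  have hR1 : (1 : ℝ) ≤ ((R : ℝ) + 1) ^ 2 := by
    have : (0 : ℝ) ≤ R := Nat.cast_nonneg _
    nlinarith
  have hn1' : (1 : ℝ) ≤ (n : ℝ) + 1 := by
    have : (0 : ℝ) ≤ n := Nat.cast_nonneg _
    linarith
  have hq0 : (0 : ℝ) ≤ (1 / 4096 : ℝ) ^ n := by positivity
  have h1 : ((n : ℝ) + 1) ^ 3 * (1 / 4096 : ℝ) ^ n ≤ wn n := by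
    unfold wn
    refine mul_le_mul_of_nonneg_right ?_ hq0
    exact pow_le_pow_right₀ hn1' (by norm_num)
  have h2 : K ≤ X * wn n / s := hKle.trans (by gcongr)
  have h3 : 4 * X ≤ 400 * (X + 1 + Pm) * (R + 1) ^ 2 := by
    have h4 : 4 * X ≤ 400 * (X + 1 + Pm) := by linarith
    have h5 : 0 ≤ 400 * (X + 1 + Pm) := by linarith
    nlinarith
  calc 4 * K ≤ 4 * (X * wn n / s) := by linarith
    _ = (4 * X) * wn n / s := by ring
    _ ≤ (400 * (X + 1 + Pm) * (R + 1) ^ 2) * wn n / s := by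
        have := wn_nonneg n
        gcongr
    _ = _ := by ring

theorem num2 {K X Pm s m : ℝ} {n n' R : ℕ} (hs : 0 < s) (hs1 : s ≤ 1) (hX0 : 0 ≤ X)
    (hPm0 : 0 ≤ Pm) (hK0 : 0 ≤ K)
    (hKle : K ≤ X * (((n : ℝ) + 1) ^ 3 * (1 / 4096) ^ n) / s) (hm : m = 5 * n + R)
    (hn' : n' ≤ n) :
    4 * (4 * K * (n' + 1) * m ^ 2) + 4 * (4 * (1 + Pm) * m ^ 2 * (1 / 8192) ^ n) ≤
      400 * (X + 1 + Pm) * (R + 1) ^ 2 / s * wn n := by
  have hm2 : m ^ 2 ≤ 25 * ((R : ℝ) + 1) ^ 2 * ((n : ℝ) + 1) ^ 2 := by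
    have h1 : m ≤ 5 * ((R : ℝ) + 1) * ((n : ℝ) + 1) := by
      rw [hm]
      have h2 : (0 : ℝ) ≤ R := Nat.cast_nonneg _
      have h3 : (0 : ℝ) ≤ n := Nat.cast_nonneg _
      nlinarith [mul_nonneg h2 h3]
    have h2 : 0 ≤ m := by rw [hm]; positivity
    calc m ^ 2 ≤ (5 * ((R : ℝ) + 1) * ((n : ℝ) + 1)) ^ 2 := pow_le_pow_left₀ h2 h1 2
      _ = _ := by ring
  have hn1' : (1 : ℝ) ≤ (n : ℝ) + 1 := by
    have : (0 : ℝ) ≤ n := Nat.cast_nonneg _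
    linarith
  have h1 : (n' : ℝ) + 1 ≤ (n : ℝ) + 1 := by
    have : (n' : ℝ) ≤ n := by exact_mod_cast hn'
    linarith
  have h2 : 4 * (4 * K * (n' + 1) * m ^ 2) ≤
      400 * X * ((R + 1) ^ 2 / s) * wn n := by
    calc 4 * (4 * K * (n' + 1) * m ^ 2)
        ≤ 4 * (4 * (X * (((n : ℝ) + 1) ^ 3 * (1 / 4096) ^ n) / s) * ((n : ℝ) + 1) *
          (25 * ((R : ℝ) + 1) ^ 2 * ((n : ℝ) + 1) ^ 2)) := by gcongr
      _ = 400 * X * ((R + 1) ^ 2 / s) * wn n := by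
          unfold wn
          ring
  have h3 : 4 * (4 * (1 + Pm) * m ^ 2 * (1 / 8192) ^ n) ≤
      400 * (1 + Pm) * ((R + 1) ^ 2 / s) * wn n := by
    have h4 : (1 / 8192 : ℝ) ^ n ≤ (1 / 4096) ^ n := pow_le_pow_left₀ (by norm_num) (by norm_num) _
    have h5 : ((n : ℝ) + 1) ^ 2 ≤ ((n : ℝ) + 1) ^ 6 := pow_le_pow_right₀ hn1' (by norm_num)
    have h6 : ((R : ℝ) + 1) ^ 2 ≤ ((R : ℝ) + 1) ^ 2 / s := by
      rw [le_div_iff₀ hs]
      have : 0 ≤ ((R : ℝ) + 1) ^ 2 := sq_nonneg _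
      nlinarith
    calc 4 * (4 * (1 + Pm) * m ^ 2 * (1 / 8192) ^ n)
        ≤ 4 * (4 * (1 + Pm) * (25 * ((R : ℝ) + 1) ^ 2 * ((n : ℝ) + 1) ^ 2) *
          (1 / 4096) ^ n) := by gcongr
      _ = 400 * (1 + Pm) * ((R : ℝ) + 1) ^ 2 * (((n : ℝ) + 1) ^ 2 * (1 / 4096) ^ n) := by ring
      _ ≤ 400 * (1 + Pm) * (((R : ℝ) + 1) ^ 2 / s) * (((n : ℝ) + 1) ^ 6 * (1 / 4096) ^ n) := by
          gcongr
      _ = _ := by
          unfold wn
          ring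
  calc _ ≤ 400 * X * ((R + 1) ^ 2 / s) * wn n + 400 * (1 + Pm) * ((R + 1) ^ 2 / s) * wn n :=
        add_le_add h2 h3
    _ = _ := by ring

theorem V3.Ok.tau_nonneg (h : D.Ok ρ) : 0 ≤ 1 - D.p D.good := by
  have h1 := Finset.single_le_sum (f := D.p) (fun b _ => h.p_nonneg b) (mem_univ D.good)
  rw [h.p_sum] at h1
  linarith

theorem Kq_nonneg {L D0 τ : ℝ} (hD0 : 0 ≤ D0) (hτ0 : 0 ≤ τ) (n : ℕ) : 0 ≤ Kq L D0 τ n := by
  have := Real.pi_pos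
  unfold Kq
  positivity

theorem osc_le {S : Finset (Tor N)} {x v : Tor N} {R : ℕ} (hS : Conn5 S) (hv : v ∈ S)
    (hvx : nrm (v - x) ≤ R) (k : Fin 4) :
    ∀ z ∈ insert x S, |phi N k z - phi N k x| ≤ 5 * (S.card : ℝ) + R := by
  intro z hz
  rw [mem_insert] at hz
  rcases hz with rfl | hz
  · simp only [sub_self, abs_zero]
    positivity
  · have h1 : nrm (z - x) ≤ 5 * S.card + R := by
      have h2 : z - x = (z - v) + (v - x) := by abel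
      rw [h2]
      refine (nrm_add_le _ _).trans ?_
      have h3 := hS.nrm_le hv hz
      omega
    have h4 := phi_osc k h1
    push_cast at h4
    exact h4

/-- one pair, one angle function -/
theorem V3.Ok.long_pair_k (h : D.Ok ρ) (hpat : ∀ j ≤ D.I, ∀ a, D.pat j a ≠ D.good)
    {i : ℕ} (hi : i ≤ D.I) {s : ℝ} (hs : 0 < s) {E L D0 Pm : ℝ} (hL0 : 0 ≤ L)
    (hD00 : 0 ≤ D0) {Dd : D.Λ → ℝ} (hDd0 : ∀ k, 0 ≤ Dd k) (hDd : ∀ k, DensLe (Dd k) (D.ν k))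
    (hD0 : ∑ k, D.p k * Dd k ≤ D0)
    (hL : ∀ l : Tor N → D.Λ, ∀ k z, ∀ᵐ u ∂D.ν k, |u - E| + D.prof (i + 1) s l z ≤ L)
    (hPm : ∀ (l : Tor N → D.Λ) (z : Tor N), D.prof (i + 1) s l z ≤ Pm) (hPm0 : 0 ≤ Pm)
    {S : Finset (Tor N)} {x v : Tor N} {R : ℕ} (hS : Conn5 S) (hv : v ∈ S)
    (hvx : nrm (v - x) ≤ R) {K m : ℝ}
    (hK : K = Kq L D0 (1 - D.p D.good) (S.erase x).card / s) (hm : m = 5 * S.card + R)
    (k : Fin 4) :
    ∑ l ∈ D.TS S, D.Pl l * (ENNReal.ofReal (D.wb i l x) * D.YY E i s k l x) ≤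
      ENNReal.ofReal (4 * K) * ∑ z ∈ insert x S, ∑ l' : Tor N → D.Λ,
        D.Pl l' * (ENNReal.ofReal (D.prof (i + 1) s l' z) * D.MM E i s k l' z) +
      (ENNReal.ofReal (4 * K * ((S.erase x).card + 1) * m ^ 2) +
      ENNReal.ofReal (4 * (1 + Pm) * m ^ 2 * (1 / 8192) ^ S.card)) := by
  haveI := h.prob
  have hxS' : x ∉ S.erase x := notMem_erase _ _
  have hins : insert x (S.erase x) = insert x S := by
    ext y
    simp only [mem_insert, mem_erase]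
    tauto
  have hK0 : 0 ≤ K := by
    rw [hK]
    exact div_nonneg (Kq_nonneg hD00 h.tau_nonneg _) hs.le
  have hTS : ∀ l ∈ D.TS S, (∀ z ∈ S, l z ≠ D.good) ∧ D.Closed l S := fun l hl => V3.mem_TS.1 hl
  have hprof : ∀ l ∈ D.TS S, ∀ z ∉ insert x (S.erase x),
      D.prof (i + 1) s l z = D.prof (i + 1) s (swf (S.erase x) D.good l) z := by
    intro l hl z hz
    have hzS : z ∉ S := fun h' => hz (by rw [hins]; exact mem_insert_of_mem h')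
    exact prof_swf_sub hpat (by omega) (hTS l hl).2 (erase_subset _ _) z hzS
  have hng : ∀ l ∈ D.TS S, ∀ z ∈ S.erase x, l z ≠ D.good := fun l hl z hz =>
    (hTS l hl).1 z (mem_of_mem_erase hz)
  have hosc : ∀ z ∈ insert x (S.erase x), |phi N k z - phi N k x| ≤ m := by
    rw [hins, hm]
    exact osc_le hS hv hvx k
  have hQ := long_q_fib h hi hs (E := E) (L := L) hL0 hDd0 hDd hD0 hL
    (D.Tf i s k (S.erase x) x) (S := S.erase x) (x := x) hxS' (Tl := D.TS S) hng hprof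
  rw [← hK] at hQ
  have h1 := h.long_one hi hs E k (S := S.erase x) (x := x) (m := m) (Pm := Pm) (K := K) hK0
    hosc hPm (Tl := D.TS S) hprof (by
      unfold V3.wb V3.Pl
      convert hQ using 6)
  rw [h.sum_Pl, mul_one] at h1
  rw [hins] at h1
  refine h1.trans (add_le_add le_rfl (add_le_add le_rfl ?_))
  have h2 := h.sum_Pl_le (S := S) (Tl := D.TS S) (fun l hl => (hTS l hl).1)
  refine (mul_le_mul' le_rfl h2).trans (le_of_eq ?_)
  rw [← ENNReal.ofReal_mul (by positivity)]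

theorem four_ofReal {a b : ℝ} (ha : 0 ≤ a) (hb : 0 ≤ b) :
    4 * (ENNReal.ofReal a + ENNReal.ofReal b) = ENNReal.ofReal (4 * a + 4 * b) := by
  rw [← ENNReal.ofReal_add ha hb, ← mul_add, ENNReal.ofReal_mul (by norm_num) (p := 4),
    ENNReal.ofReal_ofNat]

theorem V3.sum_aa (E : ℝ) (i : ℕ) (s : ℝ) (Q : Finset (Tor N)) :
    ∑ k : Fin 4, ∑ z ∈ Q, ∑ l' : Tor N → D.Λ,
        D.Pl l' * (ENNReal.ofReal (D.prof (i + 1) s l' z) * D.MM E i s k l' z) =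
      ∑ z ∈ Q, D.aa E i s z := by
  rw [sum_comm]
  refine sum_congr rfl fun z _ => ?_
  unfold V3.aa
  rw [sum_comm]
  refine sum_congr rfl fun l' _ => ?_
  rw [mul_sum, mul_sum]

/-- **one pair `(x, S)`** -/
theorem V3.Ok.long_pair (h : D.Ok ρ) (hpat : ∀ j ≤ D.I, ∀ a, D.pat j a ≠ D.good)
    {i : ℕ} (hi : i ≤ D.I) {s : ℝ} (hs : 0 < s) (hs1 : s ≤ 1) {E L D0 Pm : ℝ} (hL0 : 0 ≤ L)
    (hD00 : 0 ≤ D0) {Dd : D.Λ → ℝ} (hDd0 : ∀ k, 0 ≤ Dd k) (hDd : ∀ k, DensLe (Dd k) (D.ν k))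
    (hD0 : ∑ k, D.p k * Dd k ≤ D0)
    (hL : ∀ l : Tor N → D.Λ, ∀ k z, ∀ᵐ u ∂D.ν k, |u - E| + D.prof (i + 1) s l z ≤ L)
    (hPm : ∀ (l : Tor N → D.Λ) (z : Tor N), D.prof (i + 1) s l z ≤ Pm)
    {S : Finset (Tor N)} {x v : Tor N} {R : ℕ} (hS : Conn5 S) (hv : v ∈ S)
    (hvx : nrm (v - x) ≤ R) :
    ∑ l ∈ D.TS S, D.Pl l * (ENNReal.ofReal (D.wb i l x) * ∑ k : Fin 4, D.YY E i s k l x) ≤
      ENNReal.ofReal (C3 L D0 Pm * (R + 1) ^ 2 / s) * (ENNReal.ofReal (wn S.card) *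
        (∑ z ∈ insert x S, D.aa E i s z + 1)) := by
  have hPm0 : 0 ≤ Pm := (h.prof_pos (by omega) hs.le (fun _ => D.good) x).le.trans
    (hPm (fun _ => D.good) x)
  have hCK := CKq_nonneg (L := L) hD00
  obtain ⟨K, hK⟩ : ∃ K, K = Kq L D0 (1 - D.p D.good) (S.erase x).card / s := ⟨_, rfl⟩
  obtain ⟨m, hm⟩ : ∃ m : ℝ, m = 5 * S.card + R := ⟨_, rfl⟩
  have hcard1 : S.card ≤ (S.erase x).card + 1 := by
    have h1 := pred_card_le_card_erase (s := S) (a := x)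
    omega
  have hcard2 : (S.erase x).card ≤ S.card := card_le_card (erase_subset _ _)
  have hK0 : 0 ≤ K := by
    rw [hK]
    exact div_nonneg (Kq_nonneg hD00 h.tau_nonneg _) hs.le
  have hone := h.long_pair_k hpat hi hs hL0 hD00 hDd0 hDd hD0 hL hPm hPm0 hS hv hvx hK hm
    (x := x)
  have hKle : K ≤ CKq L D0 * 8192 ^ 2 * (((S.card : ℝ) + 1) ^ 3 * (1 / 4096) ^ S.card) / s := by
    rw [hK]
    exact div_le_div_of_nonneg_right (Kq_le hD00 h.tau_nonneg h.p_good hcard1 hcard2) hs.le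
  have hX0 : 0 ≤ CKq L D0 * 8192 ^ 2 := by positivity
  have n1 := num1 (R := R) hs hX0 hPm0 hKle
  have n2 := num2 hs hs1 hX0 hPm0 hK0 hKle hm hcard2
  have hsum : ∑ l ∈ D.TS S, D.Pl l *
      (ENNReal.ofReal (D.wb i l x) * ∑ k : Fin 4, D.YY E i s k l x) =
      ∑ k : Fin 4, ∑ l ∈ D.TS S, D.Pl l * (ENNReal.ofReal (D.wb i l x) * D.YY E i s k l x) := by
    rw [sum_comm]
    refine sum_congr rfl fun l _ => ?_
    rw [mul_sum, mul_sum]
  have hC0 : 0 ≤ 400 * (CKq L D0 * 8192 ^ 2 + 1 + Pm) * ((R : ℝ) + 1) ^ 2 / s := by positivity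
  have hw := wn_nonneg S.card
  rw [hsum]
  refine (sum_le_sum fun k _ => hone k).trans ?_
  rw [sum_add_distrib, ← mul_sum, V3.sum_aa, sum_const, card_univ, Fintype.card_fin,
    nsmul_eq_mul, Nat.cast_ofNat, four_ofReal (by positivity) (by positivity)]
  have h3 := add_le_add (mul_le_mul' (ENNReal.ofReal_le_ofReal n1)
    (le_refl (∑ z ∈ insert x S, D.aa E i s z))) (ENNReal.ofReal_le_ofReal n2)
  refine h3.trans (le_of_eq ?_)
  rw [ENNReal.ofReal_mul hC0, C3]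
  ring

end Vale.Agent.P365.J376
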