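import Vale.Agent.P365.J376.V3
import Vale.Agent.P365.C937.SwitchLab

/-!
# P365-T1, design v3: the profile off a switched set

`S` = a set of sites which contains every matched block (of every family) which it meets.  After
the labels of `S` are switched to good, matched blocks, centres and weights off `S` are the same.
-/

set_option linter.all false

namespace Vale.Agent.P365.J376

open P365L P365T1 P365T1.Switch

variable {D : V3} {N : ℕ} [NeZero N] {l : Tor N → D.Λ} {S : Finset (Tor N)}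

/-- `S` contains every matched block which it meets -/
def V3.Closed (D : V3) (l : Tor N → D.Λ) (S : Finset (Tor N)) : Prop :=
  ∀ j ≤ D.I, ∀ z, D.Mat j l z → (∃ a ∈ S, bi (D.m j) a = bi (D.m j) z) → z ∈ S

/-- matched blocks off `S` -/
theorem V3.Mat_swf (hpat : ∀ j ≤ D.I, ∀ a, D.pat j a ≠ D.good) (hcl : D.Closed l S) {j : ℕ}
    (hj : j ≤ D.I) {z : Tor N} (hz : z ∉ S) : D.Mat j (swf S D.good l) z ↔ D.Mat j l z := by
  constructor
  · intro h w hw
    have h1 := h w hw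
    by_cases hS : w ∈ S
    · rw [swf_in hS] at h1
      exact absurd h1.symm (hpat j hj _)
    · rwa [swf_out hS] at h1
  · intro h w hw
    have hS : w ∉ S := fun hS => hz (hcl j hj z h ⟨w, hS, hw⟩)
    rw [swf_out hS]
    exact h w hw

theorem V3.cen_swf (hpat : ∀ j ≤ D.I, ∀ a, D.pat j a ≠ D.good) (hcl : D.Closed l S) {j : ℕ}
    (hj : j ≤ D.I) {z : Tor N} (hz : z ∉ S) : D.cen j (swf S D.good l) z ↔ D.cen j l z :=
  and_congr_left fun _ => V3.Mat_swf hpat hcl hj hz

theorem V3.wf_swf (hpat : ∀ j ≤ D.I, ∀ a, D.pat j a ≠ D.good) (hcl : D.Closed l S) {j : ℕ}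
    (hj : j ≤ D.I) {z : Tor N} (hz : z ∉ S) : D.wf j (swf S D.good l) z = D.wf j l z := by
  classical
  have h := V3.cen_swf hpat hcl hj hz
  unfold V3.wf
  by_cases hc : D.cen j l z
  · rw [if_pos hc, if_pos (h.2 hc)]
  · rw [if_neg hc, if_neg (fun h' => hc (h.1 h')), swf_out hz]

theorem V3.Ws_swf (hpat : ∀ j ≤ D.I, ∀ a, D.pat j a ≠ D.good) (hcl : D.Closed l S) {i : ℕ}
    (hi : i ≤ D.I + 1) {z : Tor N} (hz : z ∉ S) : D.Ws i (swf S D.good l) z = D.Ws i l z := by
  induction i with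
  | zero => simp only [V3.Ws]; rw [swf_out hz]
  | succ i ih =>
    simp only [V3.Ws]
    rw [ih (by omega), V3.wf_swf hpat hcl (by omega) hz]

theorem V3.us_swf (hpat : ∀ j ≤ D.I, ∀ a, D.pat j a ≠ D.good) (hcl : D.Closed l S) (i : ℕ)
    {z : Tor N} (hz : z ∉ S) : D.us i (swf S D.good l) z = D.us i l z := by
  unfold V3.us
  congr 1
  refine Finset.sum_congr rfl fun j hj => ?_
  rw [Finset.mem_Ico] at hj
  rw [V3.wf_swf hpat hcl (by omega) hz]

/-- **the profile off a switched set** -/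
theorem V3.prof_swf' (hpat : ∀ j ≤ D.I, ∀ a, D.pat j a ≠ D.good) (hcl : D.Closed l S) {i : ℕ}
    (hi : i ≤ D.I + 1) (s : ℝ) {z : Tor N} (hz : z ∉ S) :
    D.prof i s l z = D.prof i s (swf S D.good l) z := by
  unfold V3.prof
  rw [V3.us_swf hpat hcl i hz, V3.Ws_swf hpat hcl hi hz]

/-- the same in 509's form -/
theorem prof_swf {D : V3} (hpat : ∀ j ≤ D.I, ∀ a, D.pat j a ≠ D.good) {i : ℕ} (hi : i ≤ D.I)
    {s : ℝ} {l : Tor N → D.Λ} {S : Finset (Tor N)}
    (hcl : ∀ j ≤ D.I, ∀ z, D.Mat j l z → (∃ a ∈ S, bi (D.m j) a = bi (D.m j) z) → z ∈ S) :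
    ∀ z, z ∉ S → D.prof (i + 1) s l z = D.prof (i + 1) s (swf S D.good l) z :=
  fun z hz => V3.prof_swf' hpat hcl (by omega) s hz

/-! ### only the centres of the cut blocks matter -/

/-- `S` contains the centre of every matched block which it meets -/
def V3.ClosedC (D : V3) (l : Tor N → D.Λ) (S : Finset (Tor N)) : Prop :=
  ∀ j ≤ D.I, ∀ z, D.cen j l z → (∃ a ∈ S, bi (D.m j) a = bi (D.m j) z) → z ∈ S

theorem V3.Closed.closedC (h : D.Closed l S) : D.ClosedC l S := fun j hj z hz => h j hj z hz.1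

theorem V3.cen_swf_c (hpat : ∀ j ≤ D.I, ∀ a, D.pat j a ≠ D.good) (hcl : D.ClosedC l S) {j : ℕ}
    (hj : j ≤ D.I) {z : Tor N} (hz : z ∉ S) : D.cen j (swf S D.good l) z ↔ D.cen j l z := by
  constructor
  · intro h
    refine ⟨fun w hw => ?_, h.2⟩
    have h1 := h.1 w hw
    by_cases hS : w ∈ S
    · rw [swf_in hS] at h1
      exact absurd h1.symm (hpat j hj _)
    · rwa [swf_out hS] at h1
  · intro h
    refine ⟨fun w hw => ?_, h.2⟩
    have hS : w ∉ S := fun hS => hz (hcl j hj z h ⟨w, hS, hw⟩)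
    rw [swf_out hS]
    exact h.1 w hw

theorem V3.wf_swf_c (hpat : ∀ j ≤ D.I, ∀ a, D.pat j a ≠ D.good) (hcl : D.ClosedC l S) {j : ℕ}
    (hj : j ≤ D.I) {z : Tor N} (hz : z ∉ S) : D.wf j (swf S D.good l) z = D.wf j l z := by
  classical
  have h := V3.cen_swf_c hpat hcl hj hz
  unfold V3.wf
  by_cases hc : D.cen j l z
  · rw [if_pos hc, if_pos (h.2 hc)]
  · rw [if_neg hc, if_neg (fun h' => hc (h.1 h')), swf_out hz]

theorem V3.Ws_swf_c (hpat : ∀ j ≤ D.I, ∀ a, D.pat j a ≠ D.good) (hcl : D.ClosedC l S) {i : ℕ}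
    (hi : i ≤ D.I + 1) {z : Tor N} (hz : z ∉ S) : D.Ws i (swf S D.good l) z = D.Ws i l z := by
  induction i with
  | zero => simp only [V3.Ws]; rw [swf_out hz]
  | succ i ih =>
    simp only [V3.Ws]
    rw [ih (by omega), V3.wf_swf_c hpat hcl (by omega) hz]

theorem V3.us_swf_c (hpat : ∀ j ≤ D.I, ∀ a, D.pat j a ≠ D.good) (hcl : D.ClosedC l S) (i : ℕ)
    {z : Tor N} (hz : z ∉ S) : D.us i (swf S D.good l) z = D.us i l z := by
  unfold V3.us
  congr 1
  refine Finset.sum_congr rfl fun j hj => ?_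
  rw [Finset.mem_Ico] at hj
  rw [V3.wf_swf_c hpat hcl (by omega) hz]

/-- **the profile off a switched set**, `S` contains the centres of the matched blocks it meets -/
theorem prof_swf_c {D : V3} (hpat : ∀ j ≤ D.I, ∀ a, D.pat j a ≠ D.good) {i : ℕ}
    (hi : i ≤ D.I + 1) {s : ℝ} {l : Tor N → D.Λ} {S : Finset (Tor N)} (hcl : D.ClosedC l S) :
    ∀ z, z ∉ S → D.prof i s l z = D.prof i s (swf S D.good l) z := by
  intro z hz
  unfold V3.prof
  rw [V3.us_swf_c hpat hcl i hz, V3.Ws_swf_c hpat hcl hi hz]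

/-! ### good sites -/

/-- a good site is the centre of no block -/
theorem V3.not_cen_of_good (hpat : ∀ j ≤ D.I, ∀ a, D.pat j a ≠ D.good) {j : ℕ} (hj : j ≤ D.I)
    {z : Tor N} (hz : l z = D.good) : ¬ D.cen j l z := fun h =>
  hpat j hj _ (by rw [← h.1 z rfl, hz])

theorem V3.wf_good (hpat : ∀ j ≤ D.I, ∀ a, D.pat j a ≠ D.good) (hg : D.mov D.good) {j : ℕ}
    (hj : j ≤ D.I) {z : Tor N} (hz : l z = D.good) : D.wf j l z = Real.exp (-(D.a j)) := by
  rw [V3.wf, if_neg (V3.not_cen_of_good hpat hj hz), hz, if_pos hg]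

/-- weight of a good site at stage `i + 1` -/
theorem V3.Ws_good (hpat : ∀ j ≤ D.I, ∀ a, D.pat j a ≠ D.good) (hg : D.mov D.good) {l' : Tor N → D.Λ}
    {i : ℕ} (hi : i ≤ D.I + 1) {z z' : Tor N} (hz : l z = D.good) (hz' : l' z' = D.good) :
    D.Ws i l z = D.Ws i l' z' := by
  induction i with
  | zero => simp only [V3.Ws]; rw [hz, hz']
  | succ i ih =>
    simp only [V3.Ws]
    rw [ih (by omega), V3.wf_good hpat hg (by omega) hz, V3.wf_good hpat hg (by omega) hz']

/-- profile of a good site: the same at all good sites of all configurations -/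
theorem V3.prof_good (hpat : ∀ j ≤ D.I, ∀ a, D.pat j a ≠ D.good) (hg : D.mov D.good)
    {l' : Tor N → D.Λ} {i : ℕ} (hi : i ≤ D.I + 1) (s : ℝ) {z z' : Tor N} (hz : l z = D.good)
    (hz' : l' z' = D.good) : D.prof i s l z = D.prof i s l' z' := by
  unfold V3.prof V3.us
  rw [V3.Ws_good hpat hg hi hz hz']
  congr 2
  refine Finset.sum_congr rfl fun j hj => ?_
  rw [Finset.mem_Ico] at hj
  rw [V3.wf_good hpat hg (by omega) hz, V3.wf_good hpat hg (by omega) hz']

end Vale.Agent.P365.J376
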